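import Mathlib

/-!
Layers near a regular level set: their weighted volume is at most the weighted surface measure.
-/

namespace Vale.Agent.P219

open MeasureTheory Set Filter Topology
open scoped ENNReal

variable {m : ℕ}

/-- The first coordinate in an orthonormal basis. -/
noncomputable def height (b : OrthonormalBasis (Fin (m + 1)) ℝ (EuclideanSpace ℝ (Fin (m + 1)))) : EuclideanSpace ℝ (Fin (m + 1)) →L[ℝ] ℝ :=
  (PiLp.proj 2 (fun _ : Fin (m + 1) => ℝ) 0).comp
    b.repr.toContinuousLinearEquiv.toContinuousLinearMap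

/-- The other coordinates in an orthonormal basis. -/
noncomputable def shadow (b : OrthonormalBasis (Fin (m + 1)) ℝ (EuclideanSpace ℝ (Fin (m + 1)))) (x : EuclideanSpace ℝ (Fin (m + 1))) : EuclideanSpace ℝ (Fin m) :=
  WithLp.toLp 2 fun i => b.repr x i.succ

/-- The point with given coordinates in an orthonormal basis. -/
noncomputable def mkPoint (b : OrthonormalBasis (Fin (m + 1)) ℝ (EuclideanSpace ℝ (Fin (m + 1)))) (t : ℝ) (v : EuclideanSpace ℝ (Fin m)) : EuclideanSpace ℝ (Fin (m + 1)) :=
  b.repr.symm (WithLp.toLp 2 (Fin.cons t v.ofLp))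

/-- The straightening map of a function. -/
noncomputable def straighten (b : OrthonormalBasis (Fin (m + 1)) ℝ (EuclideanSpace ℝ (Fin (m + 1)))) (u : EuclideanSpace ℝ (Fin (m + 1)) → ℝ) (x : EuclideanSpace ℝ (Fin (m + 1))) :
    EuclideanSpace ℝ (Fin (m + 1)) :=
  x + (u x - height b x) • b 0

variable (b : OrthonormalBasis (Fin (m + 1)) ℝ (EuclideanSpace ℝ (Fin (m + 1))))

theorem height_apply (x : EuclideanSpace ℝ (Fin (m + 1))) : height b x = b.repr x 0 := rfl

theorem height_basis : height b (b 0) = 1 := by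
  simp [height_apply]

theorem height_mkPoint (t : ℝ) (v : EuclideanSpace ℝ (Fin m)) : height b (mkPoint b t v) = t := by
  simp [height_apply, mkPoint]

theorem shadow_mkPoint (t : ℝ) (v : EuclideanSpace ℝ (Fin m)) : shadow b (mkPoint b t v) = v := by
  ext i
  simp [shadow, mkPoint]

theorem continuous_mkPoint : Continuous fun p : ℝ × EuclideanSpace ℝ (Fin m) => mkPoint b p.1 p.2 :=
  b.repr.symm.continuous.comp ((PiLp.continuous_toLp 2 _).comp
    (Continuous.finCons continuous_fst ((PiLp.continuous_ofLp 2 _).comp continuous_snd)))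

theorem mkPoint_height_shadow (x : EuclideanSpace ℝ (Fin (m + 1))) : mkPoint b (height b x) (shadow b x) = x := by
  apply b.repr.injective
  ext i
  simp only [mkPoint, LinearIsometryEquiv.apply_symm_apply]
  cases i using Fin.cases <;> simp [height_apply, shadow]

theorem mkPoint_add (t : ℝ) (v : EuclideanSpace ℝ (Fin m)) : mkPoint b t v = mkPoint b 0 v + t • b 0 := by
  apply b.repr.injective
  ext i
  simp only [mkPoint, LinearIsometryEquiv.apply_symm_apply, map_add, map_smul,
    b.repr_self, PiLp.add_apply, PiLp.smul_apply]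
  cases i using Fin.cases <;> simp

theorem height_straighten (u : EuclideanSpace ℝ (Fin (m + 1)) → ℝ) (x : EuclideanSpace ℝ (Fin (m + 1))) : height b (straighten b u x) = u x := by
  simp [straighten, height_basis]

theorem shadow_straighten (u : EuclideanSpace ℝ (Fin (m + 1)) → ℝ) (x : EuclideanSpace ℝ (Fin (m + 1))) : shadow b (straighten b u x) = shadow b x := by
  ext i
  simp [shadow, straighten, Fin.succ_ne_zero]

theorem shadow_lipschitz : LipschitzWith 1 (shadow b) := by
  refine LipschitzWith.of_dist_le_mul fun x y => ?_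
  rw [NNReal.coe_one, one_mul, ← b.repr.dist_map x y, EuclideanSpace.dist_eq,
    EuclideanSpace.dist_eq, Fin.sum_univ_succ (fun i => dist (b.repr x i) (b.repr y i) ^ 2)]
  exact Real.sqrt_le_sqrt (le_add_of_nonneg_left (by positivity))

theorem norm_le_norm_of_shadow (x : EuclideanSpace ℝ (Fin (m + 1))) : ‖shadow b x‖ ≤ ‖x‖ := by
  have h := (shadow_lipschitz b).dist_le_mul x 0
  have h0 : shadow b 0 = 0 := by ext i; simp [shadow]
  simpa [h0, dist_zero_right] using h

theorem euclideanHausdorff_image_le (A : Set (EuclideanSpace ℝ (Fin (m + 1)))) :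
    (volume : Measure (EuclideanSpace ℝ (Fin m))) (shadow b '' A) ≤ μHE[m] A := by
  rw [← EuclideanSpace.euclideanHausdorffMeasure_eq_volume,
    Measure.euclideanHausdorffMeasure_def, Measure.euclideanHausdorffMeasure_def,
    Measure.smul_apply, Measure.smul_apply]
  have h := (shadow_lipschitz b).hausdorffMeasure_image_le (d := (m : ℝ)) (by positivity) A
  rw [ENNReal.coe_one, ENNReal.one_rpow, one_mul] at h
  gcongr

theorem lintegral_split (F : EuclideanSpace ℝ (Fin (m + 1)) → ℝ≥0∞) (hF : Measurable F) :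
    ∫⁻ x, F x = ∫⁻ t : ℝ, ∫⁻ v : EuclideanSpace ℝ (Fin m), F (mkPoint b t v) := by
  have h1 := b.measurePreserving_repr_symm
  have h2 := PiLp.volume_preserving_toLp (Fin (m + 1))
  have h3 := (volume_preserving_piFinSuccAbove (fun _ : Fin (m + 1) => ℝ) 0).symm
  have h := (h1.comp h2).comp h3
  rw [← h.lintegral_comp hF, Measure.volume_eq_prod]
  refine (lintegral_prod _ (hF.comp h.measurable).aemeasurable).trans ?_
  refine lintegral_congr fun t => ?_
  have hv : Measurable fun v => F (mkPoint b t v) :=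
    hF.comp ((continuous_mkPoint b).comp (Continuous.prodMk continuous_const continuous_id)).measurable
  rw [← (PiLp.volume_preserving_toLp (Fin m)).lintegral_comp hv]
  refine lintegral_congr fun y => congrArg F ?_
  simp [mkPoint, MeasurableEquiv.piFinSuccAbove_symm_apply, Fin.insertNthEquiv,
    Fin.insertNth_zero']

theorem hasFDerivAt_straighten {u : EuclideanSpace ℝ (Fin (m + 1)) → ℝ} {x : EuclideanSpace ℝ (Fin (m + 1))} (hu : DifferentiableAt ℝ u x) :
    HasFDerivAt (straighten b u)
      (ContinuousLinearMap.id ℝ (EuclideanSpace ℝ (Fin (m + 1))) + (fderiv ℝ u x - height b).smulRight (b 0)) x :=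
  (hasFDerivAt_id x).add ((hu.hasFDerivAt.sub (height b).hasFDerivAt).smul_const (b 0))

theorem det_straighten (L : EuclideanSpace ℝ (Fin (m + 1)) →L[ℝ] ℝ) :
    (ContinuousLinearMap.id ℝ (EuclideanSpace ℝ (Fin (m + 1))) + (L - height b).smulRight (b 0)).det = L (b 0) := by
  have e : ((ContinuousLinearMap.id ℝ (EuclideanSpace ℝ (Fin (m + 1))) + (L - height b).smulRight (b 0) : EuclideanSpace ℝ (Fin (m + 1)) →L[ℝ] EuclideanSpace ℝ (Fin (m + 1))) :
      EuclideanSpace ℝ (Fin (m + 1)) →ₗ[ℝ] EuclideanSpace ℝ (Fin (m + 1))) = LinearMap.transvection ((L - height b : EuclideanSpace ℝ (Fin (m + 1)) →L[ℝ] ℝ) : EuclideanSpace ℝ (Fin (m + 1)) →ₗ[ℝ] ℝ) (b 0) := by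
    refine LinearMap.ext fun x => ?_
    rw [LinearMap.transvection.apply]
    simp
  rw [ContinuousLinearMap.det, e, LinearMap.transvection.det]
  simp [height_basis]

/-- One chart: weighted layers are bounded by the surface measure. -/
theorem layer_le_surface {u : EuclideanSpace ℝ (Fin (m + 1)) → ℝ} (hu : ContDiff ℝ 1 u) {η : ℝ}
    (Ψ : OpenPartialHomeomorph (EuclideanSpace ℝ (Fin (m + 1))) (EuclideanSpace ℝ (Fin (m + 1)))) (hΨ : (Ψ : EuclideanSpace ℝ (Fin (m + 1)) → EuclideanSpace ℝ (Fin (m + 1))) = straighten b u) {U : Set (EuclideanSpace ℝ (Fin (m + 1)))}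
    (hU : IsOpen U) (hUs : U ⊆ Ψ.source)
    (hη : ∀ x ∈ U, ‖fderiv ℝ u x‖ ≤ (1 + η) * |fderiv ℝ u x (b 0)|)
    {g : EuclideanSpace ℝ (Fin (m + 1)) → ℝ} (hg : Continuous g) (hgc : HasCompactSupport g) (hgU : tsupport g ⊆ U)
    {θ : ℝ} (hθ : 0 < θ) :
    ∃ δ > 0, ∀ k : ℝ → ℝ≥0∞, Measurable k → (∀ t, t ∉ Icc 0 δ → k t = 0) → ∫⁻ t, k t ≤ 1 →
      ∫⁻ x, ENNReal.ofReal (g x) * ENNReal.ofReal ‖fderiv ℝ u x‖ * k (u x) ≤
        ENNReal.ofReal (1 + η) *
          ((∫⁻ x in {x | u x = 0}, ENNReal.ofReal (g x) ∂μHE[m]) + ENNReal.ofReal θ) := by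
  classical
  set V := (Ψ : EuclideanSpace ℝ (Fin (m + 1)) → EuclideanSpace ℝ (Fin (m + 1))) '' U
  have hV : IsOpen V := Ψ.isOpen_image_of_subset_source hU hUs
  have hC : IsCompact ((Ψ : EuclideanSpace ℝ (Fin (m + 1)) → EuclideanSpace ℝ (Fin (m + 1))) '' tsupport g) :=
    hgc.isCompact.image_of_continuousOn (Ψ.continuousOn.mono (hgU.trans hUs))
  set h : EuclideanSpace ℝ (Fin (m + 1)) → ℝ := V.indicator fun y => g (Ψ.symm y) with hh
  have hVt : V ⊆ Ψ.target := by rintro y ⟨x, hx, rfl⟩; exact Ψ.map_source (hUs hx)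
  have hout : ∀ y, y ∉ (Ψ : EuclideanSpace ℝ (Fin (m + 1)) → EuclideanSpace ℝ (Fin (m + 1))) '' tsupport g → h y = 0 := by
    intro y hy
    by_cases hyV : y ∈ V
    · obtain ⟨x, hx, rfl⟩ := hyV
      rw [hh, indicator_of_mem (show (Ψ : EuclideanSpace ℝ (Fin (m + 1)) → EuclideanSpace ℝ (Fin (m + 1))) x ∈ V from ⟨x, hx, rfl⟩), Ψ.left_inv (hUs hx)]
      exact image_eq_zero_of_notMem_tsupport fun hxs => hy ⟨x, hxs, rfl⟩
    · rw [hh, indicator_of_notMem hyV]
  have hhc : Continuous h := by
    rw [continuous_iff_continuousAt]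
    intro y
    by_cases hy : y ∈ (Ψ : EuclideanSpace ℝ (Fin (m + 1)) → EuclideanSpace ℝ (Fin (m + 1))) '' tsupport g
    · have hyV : y ∈ V := image_mono hgU hy
      have hc : ContinuousAt (fun z => g (Ψ.symm z)) y :=
        hg.continuousAt.comp (Ψ.continuousAt_symm (hVt hyV))
      exact hc.congr (eventually_of_mem (hV.mem_nhds hyV) fun z hz => by
        rw [hh, indicator_of_mem hz])
    · exact continuousAt_const.congr (eventually_of_mem (hC.isClosed.isOpen_compl.mem_nhds hy)
        fun z hz => (hout z hz).symm)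
  have hhs : HasCompactSupport h := HasCompactSupport.intro hC hout
  obtain ⟨R, hR⟩ := hC.isBounded.subset_closedBall 0
  set B : Set (EuclideanSpace ℝ (Fin m)) := Metric.closedBall 0 R
  have hB : volume B ≠ ⊤ := measure_closedBall_lt_top.ne
  set θ' := θ / ((volume B).toReal + 1) with hθ'
  have hθ'0 : 0 < θ' := by positivity
  obtain ⟨δ, hδ, hunif⟩ := Metric.uniformContinuous_iff.1
    (hhs.uniformContinuous_of_continuous hhc) θ' hθ'0
  refine ⟨δ / 2, by positivity, fun k hk hk0 hk1 => ?_⟩
  set G : EuclideanSpace ℝ (Fin (m + 1)) → ℝ≥0∞ := fun y => ENNReal.ofReal (h y) * k (height b y) with hG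
  have hGm : Measurable G := hhc.measurable.ennreal_ofReal.mul (hk.comp (height b).measurable)
  have hinj : InjOn (straighten b u) U := hΨ ▸ Ψ.injOn.mono hUs
  have hdiff := hu.differentiable one_ne_zero
  have h1 : ∫⁻ x, ENNReal.ofReal (g x) * ENNReal.ofReal ‖fderiv ℝ u x‖ * k (u x) ≤
      ENNReal.ofReal (1 + η) * ∫⁻ y, G y := by
    calc ∫⁻ x, ENNReal.ofReal (g x) * ENNReal.ofReal ‖fderiv ℝ u x‖ * k (u x)
        = ∫⁻ x in U, ENNReal.ofReal (g x) * ENNReal.ofReal ‖fderiv ℝ u x‖ * k (u x) := by
          refine (setLIntegral_eq_of_support_subset fun x hx => ?_).symm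
          by_contra hxU
          refine hx ?_
          simp [image_eq_zero_of_notMem_tsupport fun h => hxU (hgU h)]
      _ ≤ ∫⁻ x in U, ENNReal.ofReal (1 + η) * (ENNReal.ofReal
            |(ContinuousLinearMap.id ℝ (EuclideanSpace ℝ (Fin (m + 1))) + (fderiv ℝ u x - height b).smulRight (b 0)).det| *
              G (straighten b u x)) := by
          refine setLIntegral_mono' hU.measurableSet fun x hx => ?_
          have hxV : straighten b u x ∈ V := ⟨x, hx, by rw [hΨ]⟩
          rw [det_straighten, hG]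
          simp only [height_straighten]
          rw [hh, indicator_of_mem hxV, ← hΨ, Ψ.left_inv (hUs hx), ← mul_assoc, ← mul_assoc,
            ← ENNReal.ofReal_mul' (abs_nonneg _), mul_comm (ENNReal.ofReal (g x)),
            mul_assoc, mul_assoc]
          exact mul_le_mul_left (ENNReal.ofReal_le_ofReal (hη x hx)) _
      _ = ENNReal.ofReal (1 + η) * ∫⁻ y in straighten b u '' U, G y := by
          rw [lintegral_const_mul' _ _ ENNReal.ofReal_ne_top,
            lintegral_image_eq_lintegral_abs_det_fderiv_mul volume hU.measurableSet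
              (fun x _ => (hasFDerivAt_straighten b (hdiff x)).hasFDerivWithinAt) hinj]
      _ ≤ _ := mul_le_mul' le_rfl (setLIntegral_le_lintegral _ _)
  refine h1.trans (mul_le_mul' le_rfl ?_)

  set I := ∫⁻ v : EuclideanSpace ℝ (Fin m), ENNReal.ofReal (h (mkPoint b 0 v))
  have hI : I ≤ ∫⁻ x in {x | u x = 0}, ENNReal.ofReal (g x) ∂μHE[m] := by
    set T : Set (EuclideanSpace ℝ (Fin m)) := {v | mkPoint b 0 v ∈ V}
    have hc0 : Continuous fun v : EuclideanSpace ℝ (Fin m) => mkPoint b 0 v :=
      (continuous_mkPoint b).comp (Continuous.prodMk continuous_const continuous_id)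
    have hT : MeasurableSet T := (hV.preimage hc0).measurableSet
    have hKU : MeasurableSet ({x | u x = 0} ∩ U) :=
      (isClosed_eq hu.continuous continuous_const).measurableSet.inter hU.measurableSet
    have hle : (volume : Measure (EuclideanSpace ℝ (Fin m))).restrict T ≤
        Measure.map (shadow b) ((μHE[m] : Measure (EuclideanSpace ℝ (Fin (m + 1)))).restrict ({x | u x = 0} ∩ U)) := by
      refine Measure.le_iff.2 fun A hA => ?_
      rw [Measure.restrict_apply hA, Measure.map_apply (shadow_lipschitz b).continuous.measurable hA,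
        Measure.restrict_apply ((shadow_lipschitz b).continuous.measurable hA)]
      refine le_trans (measure_mono ?_) (euclideanHausdorff_image_le b _)
      rintro v ⟨hvA, x, hx, hxv⟩
      rw [hΨ] at hxv
      have h0 := congrArg (height b) hxv
      have h2 := congrArg (shadow b) hxv
      rw [height_straighten, height_mkPoint] at h0
      rw [shadow_straighten, shadow_mkPoint] at h2
      exact ⟨x, ⟨by rw [mem_preimage, h2]; exact hvA, h0, hx⟩, h2⟩
    calc I = ∫⁻ v in T, ENNReal.ofReal (h (mkPoint b 0 v)) := by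
          refine (setLIntegral_eq_of_support_subset fun v hv => ?_).symm
          by_contra hvT
          exact hv (by simp [hh, indicator_of_notMem (show mkPoint b 0 v ∉ V from hvT)])
      _ ≤ ∫⁻ v, ENNReal.ofReal (h (mkPoint b 0 v))
            ∂Measure.map (shadow b) ((μHE[m] : Measure (EuclideanSpace ℝ (Fin (m + 1)))).restrict ({x | u x = 0} ∩ U)) :=
          lintegral_mono' hle le_rfl
      _ = ∫⁻ x in {x | u x = 0} ∩ U, ENNReal.ofReal (h (mkPoint b 0 (shadow b x))) ∂μHE[m] :=
          lintegral_map (hhc.comp hc0).measurable.ennreal_ofReal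
            (shadow_lipschitz b).continuous.measurable
      _ = ∫⁻ x in {x | u x = 0} ∩ U, ENNReal.ofReal (g x) ∂μHE[m] := by
          refine setLIntegral_congr_fun hKU fun x hx => ?_
          have e : mkPoint b 0 (shadow b x) = straighten b u x := by
            rw [← shadow_straighten b u x, show (0 : ℝ) = height b (straighten b u x) by
              rw [height_straighten]; exact hx.1.symm, mkPoint_height_shadow]
          show ENNReal.ofReal (h _) = _
          rw [e, hh, indicator_of_mem (show straighten b u x ∈ V from ⟨x, hx.2, by rw [hΨ]⟩),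
            ← hΨ, Ψ.left_inv (hUs hx.2)]
      _ ≤ _ := lintegral_mono_set inter_subset_left
  have hkey : ∀ t, k t * ∫⁻ v, ENNReal.ofReal (h (mkPoint b t v)) ≤
      k t * (I + ENNReal.ofReal θ) := by
    intro t
    by_cases ht : t ∈ Icc 0 (δ / 2)
    swap
    · simp [hk0 t ht]
    refine mul_le_mul' le_rfl ?_
    have hpt : ∀ v, ENNReal.ofReal (h (mkPoint b t v)) ≤
        ENNReal.ofReal (h (mkPoint b 0 v)) + B.indicator (fun _ => ENNReal.ofReal θ') v := by
      intro v
      by_cases hv : v ∈ B
      · rw [indicator_of_mem hv]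
        have hd : dist (mkPoint b t v) (mkPoint b 0 v) < δ := by
          rw [mkPoint_add b t v, dist_eq_norm, add_sub_cancel_left, norm_smul, b.norm_eq_one,
            mul_one, Real.norm_eq_abs, abs_of_nonneg ht.1]
          linarith [ht.2]
        have := hunif hd
        rw [Real.dist_eq] at this
        calc ENNReal.ofReal (h (mkPoint b t v))
            ≤ ENNReal.ofReal (h (mkPoint b 0 v) + θ') :=
              ENNReal.ofReal_le_ofReal (by linarith [le_abs_self (h (mkPoint b t v) - h (mkPoint b 0 v))])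
          _ ≤ _ := ENNReal.ofReal_add_le
      · rw [hout]
        · simp
        intro hm
        have := hR hm
        rw [Metric.mem_closedBall, dist_zero_right] at this
        refine hv ?_
        rw [Metric.mem_closedBall, dist_zero_right, ← shadow_mkPoint b t v]
        exact (norm_le_norm_of_shadow b _).trans this
    calc ∫⁻ v, ENNReal.ofReal (h (mkPoint b t v))
        ≤ ∫⁻ v, (ENNReal.ofReal (h (mkPoint b 0 v)) +
            B.indicator (fun _ => ENNReal.ofReal θ') v) := lintegral_mono hpt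
      _ = I + ENNReal.ofReal θ' * volume B := by
          rw [lintegral_add_right _ (measurable_const.indicator measurableSet_closedBall),
            lintegral_indicator_const measurableSet_closedBall]
      _ ≤ _ := by
          refine add_le_add le_rfl ?_
          rw [← ENNReal.ofReal_toReal hB, ← ENNReal.ofReal_mul hθ'0.le]
          refine ENNReal.ofReal_le_ofReal ?_
          rw [hθ', div_mul_eq_mul_div, div_le_iff₀ (by positivity)]
          nlinarith [ENNReal.toReal_nonneg (a := volume B)]
  calc ∫⁻ y, G y = ∫⁻ t, k t * ∫⁻ v, ENNReal.ofReal (h (mkPoint b t v)) := by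
        rw [lintegral_split b G hGm]
        refine lintegral_congr fun t => ?_
        simp only [hG, height_mkPoint]
        rw [lintegral_mul_const, mul_comm]
        exact (hhc.comp ((continuous_mkPoint b).comp
          (Continuous.prodMk continuous_const continuous_id))).measurable.ennreal_ofReal
    _ ≤ ∫⁻ t, k t * (I + ENNReal.ofReal θ) := lintegral_mono hkey
    _ = (∫⁻ t, k t) * (I + ENNReal.ofReal θ) := lintegral_mul_const _ hk
    _ ≤ 1 * (I + ENNReal.ofReal θ) := mul_le_mul' hk1 le_rfl
    _ ≤ _ := by rw [one_mul]; exact add_le_add hI le_rfl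

/-- Charts exist at regular zeros. -/
theorem exists_chart {u : EuclideanSpace ℝ (Fin (m + 1)) → ℝ} (hu : ContDiff ℝ 1 u) {η : ℝ} (hη : 0 < η) {p : EuclideanSpace ℝ (Fin (m + 1))}
    (hp : fderiv ℝ u p ≠ 0) :
    ∃ (b : OrthonormalBasis (Fin (m + 1)) ℝ (EuclideanSpace ℝ (Fin (m + 1)))) (Ψ : OpenPartialHomeomorph (EuclideanSpace ℝ (Fin (m + 1))) (EuclideanSpace ℝ (Fin (m + 1)))) (U : Set (EuclideanSpace ℝ (Fin (m + 1)))),
      (Ψ : EuclideanSpace ℝ (Fin (m + 1)) → EuclideanSpace ℝ (Fin (m + 1))) = straighten b u ∧ IsOpen U ∧ p ∈ U ∧ U ⊆ Ψ.source ∧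
        ∀ x ∈ U, ‖fderiv ℝ u x‖ ≤ (1 + η) * |fderiv ℝ u x (b 0)| := by
  set a : EuclideanSpace ℝ (Fin (m + 1)) := (InnerProductSpace.toDual ℝ (EuclideanSpace ℝ (Fin (m + 1)))).symm (fderiv ℝ u p) with ha
  have han : ‖a‖ = ‖fderiv ℝ u p‖ := by simp [ha]
  have ha0 : (‖a‖ : ℝ) ≠ 0 := by rw [han]; simpa using hp
  obtain ⟨b, hb⟩ := Orthonormal.exists_orthonormalBasis_extension_of_card_eq
    (𝕜 := ℝ) (E := EuclideanSpace ℝ (Fin (m + 1))) (ι := Fin (m + 1)) (by simp) (v := fun _ => ‖a‖⁻¹ • a) (s := {0}) (by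
      refine orthonormal_iff_ite.2 fun i j => ?_
      have hij : i = j := Subtype.ext (i.2.trans j.2.symm)
      subst hij
      simp [Set.domRestrict_apply, real_inner_self_eq_norm_sq, norm_smul, ha0])
  have hb0 : fderiv ℝ u p (b 0) = ‖fderiv ℝ u p‖ := by
    rw [hb 0 rfl, map_smul, ← InnerProductSpace.toDual_symm_apply (y := fderiv ℝ u p), ← ha,
      real_inner_self_eq_norm_sq, smul_eq_mul, ← han]
    field_simp
  have hd := hu.differentiable one_ne_zero p
  have hs : ContDiffAt ℝ 1 (straighten b u) p :=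
    (contDiff_id.add (((hu.sub (height b).contDiff)).smul contDiff_const)).contDiffAt
  have hdet : (fderiv ℝ (straighten b u) p).det ≠ 0 := by
    rw [(hasFDerivAt_straighten b hd).fderiv, det_straighten, hb0]
    simpa using hp
  have hst : HasStrictFDerivAt (straighten b u)
      ((fderiv ℝ (straighten b u) p).toContinuousLinearEquivOfDetNeZero hdet : EuclideanSpace ℝ (Fin (m + 1)) →L[ℝ] EuclideanSpace ℝ (Fin (m + 1))) p := by
    rw [ContinuousLinearMap.coe_toContinuousLinearEquivOfDetNeZero]
    exact hs.hasStrictFDerivAt one_ne_zero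
  refine ⟨b, hst.toOpenPartialHomeomorph (straighten b u),
    (hst.toOpenPartialHomeomorph (straighten b u)).source ∩
      {x | ‖fderiv ℝ u x‖ < (1 + η) * |fderiv ℝ u x (b 0)|}, rfl, ?_, ?_, inter_subset_left,
    fun x hx => hx.2.le⟩
  · have hc := hu.continuous_fderiv one_ne_zero
    exact (OpenPartialHomeomorph.open_source _).inter
      (isOpen_lt hc.norm (continuous_const.mul (hc.clm_apply continuous_const).abs))
  · refine ⟨hst.mem_toOpenPartialHomeomorph_source, ?_⟩
    show ‖fderiv ℝ u p‖ < (1 + η) * |fderiv ℝ u p (b 0)|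
    rw [hb0, abs_norm]
    nlinarith [norm_pos_iff.2 hp]

end Vale.Agent.P219
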