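import Mathlib

/-!
The one-dimensional quantile function of the weight `(1 - t ^ 2) ^ (n / 2)`.
-/

namespace Vale.Agent.P219

open MeasureTheory intervalIntegral Set Real Filter
open scoped Topology

/-- The weight. -/
noncomputable def wgt (n : ℕ) (t : ℝ) : ℝ := √|1 - t ^ 2| ^ n

theorem continuous_wgt (n : ℕ) : Continuous (wgt n) := by unfold wgt; fun_prop

theorem wgt_nonneg (n : ℕ) (t : ℝ) : 0 ≤ wgt n t := by unfold wgt; positivity

/-- The integral of the weight. -/
noncomputable def Phi (n : ℕ) (t : ℝ) : ℝ := ∫ u in (0 : ℝ)..t, wgt n u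

/-- The total weight on `[0, 1]`. -/
noncomputable def J (n : ℕ) : ℝ := Phi n 1

theorem hasDerivAt_Phi (n : ℕ) (t : ℝ) : HasDerivAt (Phi n) (wgt n t) t :=
  (continuous_wgt n).integral_hasStrictDerivAt 0 t |>.hasDerivAt

theorem Phi_zero (n : ℕ) : Phi n 0 = 0 := by simp [Phi]

theorem strictMono_Phi (n : ℕ) : StrictMono (Phi n) := by
  intro a b hab
  have hi : ∀ x y : ℝ, IntervalIntegrable (wgt n) volume x y := fun x y =>
    (continuous_wgt n).intervalIntegrable x y
  have : 0 < ∫ u in a..b, wgt n u := by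
    refine integral_pos hab (continuous_wgt n).continuousOn (fun x _ => wgt_nonneg n x) ?_
    obtain ⟨c, hc, hc'⟩ : ∃ c ∈ Icc a b, |1 - c ^ 2| ≠ 0 := by
      by_contra h
      push Not at h
      have h1 := h a ⟨le_rfl, hab.le⟩
      have h2 := h b ⟨hab.le, le_rfl⟩
      have h3 := h ((a + b) / 2) ⟨by linarith, by linarith⟩
      simp only [abs_eq_zero] at h1 h2 h3
      nlinarith
    exact ⟨c, hc, pow_pos (sqrt_pos.mpr (lt_of_le_of_ne (abs_nonneg _) hc'.symm)) n⟩
  rw [← integral_interval_sub_left (hi 0 b) (hi 0 a)] at this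
  change Phi n a < Phi n b
  unfold Phi
  linarith

theorem Phi_neg (n : ℕ) (t : ℝ) : Phi n (-t) = -Phi n t := by
  have h := intervalIntegral.integral_comp_neg (a := 0) (b := t) (wgt n)
  have e : (fun u => wgt n (-u)) = wgt n := by funext u; simp [wgt]
  rw [e, neg_zero] at h
  rw [Phi, Phi, h, intervalIntegral.integral_symm]

theorem surjective_Phi (n : ℕ) : Function.Surjective (Phi n) := by
  intro y
  have hcont : Continuous (Phi n) :=
    continuous_iff_continuousAt.mpr fun t => (hasDerivAt_Phi n t).continuousAt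
  set R := |y| + 2 with hR
  have hR2 : 2 ≤ R := by simp [hR]
  have hbig : |y| ≤ Phi n R := by
    have h1 : Phi n 2 + ∫ u in (2 : ℝ)..R, wgt n u = Phi n R :=
      integral_add_adjacent_intervals ((continuous_wgt n).intervalIntegrable _ _)
        ((continuous_wgt n).intervalIntegrable _ _)
    have h2 : 0 ≤ Phi n 2 := by
      rw [← Phi_zero n]; exact (strictMono_Phi n).monotone (by norm_num)
    have h3 : ∫ _ in (2 : ℝ)..R, (1 : ℝ) ≤ ∫ u in (2 : ℝ)..R, wgt n u := by
      refine integral_mono_on hR2 (continuous_const.intervalIntegrable _ _)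
        ((continuous_wgt n).intervalIntegrable _ _) fun u hu => ?_
      refine one_le_pow₀ (one_le_sqrt.mpr ?_)
      rw [abs_of_nonpos (by nlinarith [hu.1])]
      nlinarith [hu.1]
    simp only [intervalIntegral.integral_const, smul_eq_mul, mul_one] at h3
    linarith
  exact mem_range_of_exists_le_of_exists_ge hcont
    ⟨-R, by rw [Phi_neg]; linarith [neg_abs_le y]⟩ ⟨R, by linarith [le_abs_self y]⟩

/-- The inverse of `Phi`. -/
noncomputable def quant (n : ℕ) : ℝ ≃o ℝ :=
  (StrictMono.orderIsoOfSurjective (Phi n) (strictMono_Phi n) (surjective_Phi n)).symm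

theorem Phi_quant (n : ℕ) (s : ℝ) : Phi n (quant n s) = s :=
  StrictMono.orderIsoOfSurjective_self_symm_apply _ _ _ _

theorem quant_Phi (n : ℕ) (t : ℝ) : quant n (Phi n t) = t :=
  StrictMono.orderIsoOfSurjective_symm_apply_self _ _ _ _

theorem quant_zero (n : ℕ) : quant n 0 = 0 := by simpa [Phi_zero] using quant_Phi n 0

theorem quant_J (n : ℕ) : quant n (J n) = 1 := quant_Phi n 1

theorem continuous_quant (n : ℕ) : Continuous (quant n) := (quant n).continuous

theorem J_pos (n : ℕ) : 0 < J n := by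
  rw [J, ← Phi_zero n]; exact strictMono_Phi n one_pos

theorem quant_mem_Icc (n : ℕ) {s : ℝ} (hs : s ∈ Icc 0 (J n)) : quant n s ∈ Icc (0 : ℝ) 1 :=
  ⟨(quant_zero n).symm.le.trans ((quant n).monotone hs.1),
    ((quant n).monotone hs.2).trans (quant_J n).le⟩

theorem quant_mem_Ioo (n : ℕ) {s : ℝ} (hs : s ∈ Ioo 0 (J n)) : quant n s ∈ Ioo (0 : ℝ) 1 :=
  ⟨(quant_zero n).symm.le.trans_lt ((quant n).strictMono hs.1),
    ((quant n).strictMono hs.2).trans_le (quant_J n).le⟩

theorem wgt_eq {n : ℕ} {t : ℝ} (ht : t ∈ Icc (0 : ℝ) 1) : wgt n t = √(1 - t ^ 2) ^ n := by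
  rw [wgt, abs_of_nonneg (by nlinarith [ht.1, ht.2])]

theorem hasDerivAt_quant (n : ℕ) {s : ℝ} (hs : s ∈ Ioo 0 (J n)) :
    HasDerivAt (quant n) (√(1 - quant n s ^ 2) ^ n)⁻¹ s := by
  have hm := quant_mem_Ioo n hs
  have e := wgt_eq (n := n) (Ioo_subset_Icc_self hm)
  refine (e ▸ hasDerivAt_Phi n _).of_local_left_inverse (continuous_quant n).continuousAt ?_
    (Eventually.of_forall (Phi_quant n))
  exact (pow_pos (sqrt_pos.mpr (by nlinarith [hm.1, hm.2])) n).ne'

/-- The product of the one-dimensional weights. -/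
noncomputable def cprod (n : ℕ) : ℝ := ∏ j ∈ Finset.range n, J j

theorem cprod_pos (n : ℕ) : 0 < cprod n := Finset.prod_pos fun j _ => J_pos j

theorem cprod_succ (n : ℕ) : cprod (n + 1) = cprod n * J n := Finset.prod_range_succ _ _

end Vale.Agent.P219
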