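import Mathlib
import Vale.Agent.P219.Quantile

/-!
The product of the one-dimensional weights is the volume of an orthant of the unit ball.
-/

namespace Vale.Agent.P219

open MeasureTheory Set Real

theorem J_eq (n : ℕ) : J n = ∫ t in (0 : ℝ)..1, √(1 - t ^ 2) ^ n := by
  rw [J, Phi]
  refine intervalIntegral.integral_congr fun t ht => ?_
  rw [uIcc_of_le zero_le_one] at ht
  exact wgt_eq ht

theorem J_zero : J 0 = 1 := by simp [J_eq]

theorem J_one : J 1 = π / 4 := by
  have hc : Continuous fun t : ℝ => √(1 - t ^ 2) := by fun_prop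
  have h := integral_sqrt_one_sub_sq
  rw [← intervalIntegral.integral_add_adjacent_intervals (b := 0) (hc.intervalIntegrable _ _)
    (hc.intervalIntegrable _ _)] at h
  have h2 := intervalIntegral.integral_comp_neg (a := (0 : ℝ)) (b := 1) fun t : ℝ => √(1 - t ^ 2)
  simp only [neg_sq, neg_zero] at h2
  rw [J_eq]
  simp only [pow_one]
  linarith

theorem J_succ_succ (n : ℕ) : J (n + 2) = ((n : ℝ) + 2) / ((n : ℝ) + 3) * J n := by
  have hc : ∀ k : ℕ, Continuous fun t : ℝ => √(1 - t ^ 2) ^ k := fun k => by fun_prop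
  have hd : ∀ t ∈ Ioo (0 : ℝ) 1, HasDerivAt (fun t : ℝ => t * √(1 - t ^ 2) ^ (n + 2))
      (((n : ℝ) + 3) * √(1 - t ^ 2) ^ (n + 2) - ((n : ℝ) + 2) * √(1 - t ^ 2) ^ n) t := by
    intro t ht
    have hpos : 0 < 1 - t ^ 2 := by nlinarith [ht.1, ht.2]
    have hs := sq_sqrt hpos.le
    have h1 : HasDerivAt (fun t : ℝ => 1 - t ^ 2) (-(2 * t)) t := by
      simpa using ((hasDerivAt_pow 2 t).const_sub 1)
    refine ((hasDerivAt_id' t).mul ((h1.sqrt hpos.ne').fun_pow (n + 2))).congr_deriv ?_
    have hne := (sqrt_pos.mpr hpos).ne'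
    simp only [Nat.cast_add, Nat.cast_ofNat, show n + 2 - 1 = n + 1 by omega, pow_succ]
    field_simp
    linear_combination ((n : ℝ) + 2) * hs * (-1)
  have h := intervalIntegral.integral_eq_sub_of_hasDerivAt_of_le zero_le_one
    (continuous_id.fun_mul (hc (n + 2))).continuousOn hd
    (((continuous_const.fun_mul (hc (n + 2))).fun_sub (continuous_const.fun_mul (hc n))).intervalIntegrable _ _)
  rw [intervalIntegral.integral_sub ((continuous_const.fun_mul (hc (n + 2))).intervalIntegrable _ _)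
      ((continuous_const.fun_mul (hc n)).intervalIntegrable _ _),
    intervalIntegral.integral_const_mul, intervalIntegral.integral_const_mul, ← J_eq, ← J_eq] at h
  simp at h
  field_simp
  linarith

theorem two_mul_J (n : ℕ) :
    2 * J n = √π * Gamma ((n : ℝ) / 2 + 1) / Gamma ((n : ℝ) / 2 + 3 / 2) := by
  induction n using Nat.strong_induction_on with
  | _ n ih =>
    have hs : √π ≠ 0 := (sqrt_pos.mpr pi_pos).ne'
    have hG : Gamma (3 / 2 : ℝ) = √π / 2 := by
      rw [show (3 / 2 : ℝ) = 1 / 2 + 1 by norm_num, Gamma_add_one (by norm_num), Gamma_one_half_eq]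
      ring
    rcases n with _ | _ | k
    · simp [J_zero, hG]
      field_simp
    · rw [J_one, Nat.zero_add, Nat.cast_one, show (1 : ℝ) / 2 + 1 = 3 / 2 by norm_num,
        show (1 : ℝ) / 2 + 3 / 2 = 1 + 1 by norm_num, Gamma_add_one (by norm_num), Gamma_one, hG]
      field_simp
      rw [sq_sqrt pi_pos.le]
      ring
    · have := ih k (by omega)
      rw [J_succ_succ]
      push_cast
      rw [show ((k : ℝ) + 1 + 1) / 2 + 1 = ((k : ℝ) / 2 + 1) + 1 by ring,
        show ((k : ℝ) + 1 + 1) / 2 + 3 / 2 = ((k : ℝ) / 2 + 3 / 2) + 1 by ring,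
        Gamma_add_one (show (k : ℝ) / 2 + 1 ≠ 0 by positivity),
        Gamma_add_one (show (k : ℝ) / 2 + 3 / 2 ≠ 0 by positivity)]
      have hne : Gamma ((k : ℝ) / 2 + 3 / 2) ≠ 0 := (Gamma_pos_of_pos (by positivity)).ne'
      rw [show 2 * (((k : ℝ) + 2) / ((k : ℝ) + 3) * J k)
        = ((k : ℝ) + 2) / ((k : ℝ) + 3) * (2 * J k) by ring, this]
      field_simp

theorem cprod_eq (n : ℕ) :
    cprod n = (volume (Metric.ball (0 : EuclideanSpace ℝ (Fin n)) 1)).toReal / 2 ^ n := by
  have key : ∀ k : ℕ, cprod k * 2 ^ k = √π ^ k / Gamma ((k : ℝ) / 2 + 1) := by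
    intro k
    induction k with
    | zero => simp [cprod]
    | succ k ih =>
      rw [cprod_succ, pow_succ, show cprod k * J k * (2 ^ k * 2) = cprod k * 2 ^ k * (2 * J k) by ring,
        ih, two_mul_J, show (((k + 1 : ℕ) : ℝ) / 2 + 1) = (k : ℝ) / 2 + 3 / 2 by push_cast; ring]
      have := (Gamma_pos_of_pos (show (0 : ℝ) < (k : ℝ) / 2 + 1 by positivity)).ne'
      field_simp
      ring
  rcases Nat.eq_zero_or_pos n with rfl | hn
  · simp [cprod, Measure.real]
    rw [show Metric.ball (0 : EuclideanSpace ℝ (Fin 0)) 1 = univ from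
      Set.eq_univ_of_forall fun x => by simp [Subsingleton.elim x 0]]
    have h := (PiLp.volume_preserving_toLp (Fin 0)).measure_preimage MeasurableSet.univ.nullMeasurableSet
    rw [preimage_univ, volume_pi, Measure.pi_univ] at h
    simp [← h]
  · have : Nonempty (Fin n) := ⟨⟨0, hn⟩⟩
    rw [EuclideanSpace.volume_ball, Fintype.card_fin]
    simp only [ENNReal.ofReal_one, one_pow, one_mul]
    rw [ENNReal.toReal_ofReal (div_nonneg (pow_nonneg (sqrt_nonneg _) _)
      (Gamma_pos_of_pos (by positivity)).le), ← key n]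
    field_simp

end Vale.Agent.P219
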