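import Mathlib
import Vale.Agent.P219.Quantile

/-!
The Knothe argument in an orthant cube.
-/

namespace Vale.Agent.P219

open MeasureTheory Set Real Filter
open scoped Topology

/-- The cube `[0, L] ^ n`. -/
def cube (n : ℕ) (L : ℝ) : Set (Fin n → ℝ) := Icc 0 fun _ => L

theorem isCompact_cube (n : ℕ) (L : ℝ) : IsCompact (cube n L) := isCompact_Icc

theorem measurableSet_cube (n : ℕ) (L : ℝ) : MeasurableSet (cube n L) := measurableSet_Icc

theorem volume_cube (n : ℕ) {L : ℝ} (hL : 0 ≤ L) : (volume (cube n L)).toReal = L ^ n := by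
  rw [cube, Real.volume_Icc_pi_toReal (show (0 : Fin n → ℝ) ≤ fun _ => L from fun _ => hL)]
  simp

/-- The length of the negative parts of the partial derivatives. -/
noncomputable def negGrad {n : ℕ} (G : (Fin n → ℝ) → ℝ) (x : Fin n → ℝ) : ℝ :=
  √(∑ k, max (-(fderiv ℝ G x (Pi.single k 1))) 0 ^ 2)

theorem negGrad_nonneg {n : ℕ} (G : (Fin n → ℝ) → ℝ) (x : Fin n → ℝ) : 0 ≤ negGrad G x :=
  sqrt_nonneg _

theorem continuous_negGrad {n : ℕ} {G : (Fin n → ℝ) → ℝ} (hG : ContDiff ℝ 1 G) :
    Continuous (negGrad G) := by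
  refine continuous_sqrt.comp (continuous_finsetSum _ fun k _ => ?_)
  exact (((hG.continuous_fderiv one_ne_zero).clm_apply continuous_const).neg.max
    continuous_const).pow 2

theorem integrableOn_cube {n : ℕ} {L : ℝ} {F : (Fin n → ℝ) → ℝ} (hF : Continuous F) :
    IntegrableOn F (cube n L) :=
  hF.continuousOn.integrableOn_compact (isCompact_cube n L)

theorem cube_split {n : ℕ} {L : ℝ} (hL : 0 ≤ L) {F : (Fin (n + 1) → ℝ) → ℝ} (hF : Continuous F) :
    ∫ x in cube (n + 1) L, F x = ∫ a in (0 : ℝ)..L, ∫ y in cube n L, F (Fin.cons a y) := by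
  have hmp := (volume_preserving_piFinSuccAbove (fun _ : Fin (n + 1) => ℝ) 0).symm
  have hemb := (MeasurableEquiv.piFinSuccAbove (fun _ : Fin (n + 1) => ℝ) 0).symm.measurableEmbedding
  have e : ∀ p : ℝ × (Fin n → ℝ),
      (MeasurableEquiv.piFinSuccAbove (fun _ : Fin (n + 1) => ℝ) 0).symm p = Fin.cons p.1 p.2 := by
    intro p
    simp [MeasurableEquiv.piFinSuccAbove_symm_apply, Fin.insertNthEquiv, Fin.insertNth_zero']
  have hpre : (MeasurableEquiv.piFinSuccAbove (fun _ : Fin (n + 1) => ℝ) 0).symm ⁻¹' cube (n + 1) L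
      = Icc 0 L ×ˢ cube n L := by
    ext p
    simp only [mem_preimage, e, cube, mem_Icc, mem_prod, Pi.le_def]
    constructor
    · rintro ⟨h1, h2⟩
      exact ⟨⟨by simpa using h1 0, by simpa using h2 0⟩, fun i => by simpa using h1 i.succ,
        fun i => by simpa using h2 i.succ⟩
    · rintro ⟨⟨h1, h2⟩, h3, h4⟩
      refine ⟨fun i => ?_, fun i => ?_⟩
      · cases i using Fin.cases with
        | zero => simpa using h1
        | succ j => simpa using h3 j
      · cases i using Fin.cases with
        | zero => simpa using h2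
        | succ j => simpa using h4 j
  rw [← hmp.setIntegral_preimage_emb hemb F (cube (n + 1) L), hpre, Measure.volume_eq_prod,
    setIntegral_prod _ ?_, intervalIntegral.integral_of_le hL, ← integral_Icc_eq_integral_Ioc]
  · simp only [e]
  · simp only [e]
    exact ((hF.comp (Continuous.finCons (A := fun _ : Fin (n + 1) => ℝ) continuous_fst continuous_snd)).continuousOn).integrableOn_compact
      (isCompact_Icc.prod (isCompact_cube n L))

theorem cons_mem_cube {n : ℕ} {L a : ℝ} {y : Fin n → ℝ} (ha : a ∈ Icc 0 L) (hy : y ∈ cube n L) :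
    (Fin.cons a y : Fin (n + 1) → ℝ) ∈ cube (n + 1) L := by
  refine ⟨fun i => ?_, fun i => ?_⟩
  · cases i using Fin.cases with
    | zero => simpa using ha.1
    | succ j => simpa using hy.1 j
  · cases i using Fin.cases with
    | zero => simpa using ha.2
    | succ j => simpa using hy.2 j

theorem continuous_slice {n : ℕ} {F : (Fin (n + 1) → ℝ) → ℝ} (hF : Continuous F) (a : ℝ) :
    Continuous fun y : Fin n → ℝ => F (Fin.cons a y) :=
  hF.comp (Continuous.finCons (A := fun _ : Fin (n + 1) => ℝ) continuous_const continuous_id)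

theorem continuous_integral_slice {n : ℕ} {L : ℝ} {F : (Fin (n + 1) → ℝ) → ℝ} (hF : Continuous F) :
    Continuous fun a : ℝ => ∫ y in cube n L, F (Fin.cons a y) :=
  continuous_parametric_integral_of_continuous
    (f := fun (a : ℝ) (y : Fin n → ℝ) => F (Fin.cons a y))
    (hF.comp (Continuous.finCons (A := fun _ : Fin (n + 1) => ℝ) continuous_fst continuous_snd)) (isCompact_cube n L)

theorem hasDerivAt_cons {n : ℕ} (a : ℝ) (y : Fin n → ℝ) :
    HasDerivAt (fun t : ℝ => (Fin.cons t y : Fin (n + 1) → ℝ)) (Pi.single 0 1) a := by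
  refine hasDerivAt_pi.mpr fun i => ?_
  cases i using Fin.cases with
  | zero => exact (hasDerivAt_id a).congr_deriv (by simp) |>.congr_of_eventuallyEq (Eventually.of_forall fun t => by simp)
  | succ j => simpa using hasDerivAt_const a (y j)

theorem fderiv_slice {n : ℕ} {G : (Fin (n + 1) → ℝ) → ℝ} (hG : Differentiable ℝ G) (a : ℝ)
    (y : Fin n → ℝ) (k : Fin n) :
    fderiv ℝ (fun z => G (Fin.cons a z)) y (Pi.single k 1)
      = fderiv ℝ G (Fin.cons a y) (Pi.single k.succ 1) := by
  set T : (Fin n → ℝ) →L[ℝ] (Fin (n + 1) → ℝ) :=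
    ContinuousLinearMap.pi (Fin.cases (0 : (Fin n → ℝ) →L[ℝ] ℝ) fun j => ContinuousLinearMap.proj j)
  have hT : HasFDerivAt (fun z : Fin n → ℝ => (Fin.cons a z : Fin (n + 1) → ℝ)) T y := by
    refine hasFDerivAt_pi.mpr fun i => ?_
    cases i using Fin.cases with
    | zero => simpa using hasFDerivAt_const a y
    | succ j => exact (hasFDerivAt_apply j y).congr_fderiv (by simp [T]) |>.congr_of_eventuallyEq (Eventually.of_forall fun z => by simp)
  have h := ((hG _).hasFDerivAt.comp y hT).fderiv
  rw [show (fun z => G (Fin.cons a z)) = G ∘ fun z => (Fin.cons a z : Fin (n + 1) → ℝ) from rfl, h]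
  simp only [ContinuousLinearMap.comp_apply]
  congr 1
  ext i
  cases i using Fin.cases with
  | zero => simp [T, (Fin.succ_ne_zero k).symm]
  | succ j => simp [T, Pi.single_apply, Fin.succ_inj]

theorem hasDerivAt_integral_slice {n : ℕ} {L : ℝ} {G : (Fin (n + 1) → ℝ) → ℝ}
    (hG : ContDiff ℝ 1 G) (a : ℝ) :
    HasDerivAt (fun t => ∫ y in cube n L, G (Fin.cons t y))
      (∫ y in cube n L, fderiv ℝ G (Fin.cons a y) (Pi.single 0 1)) a := by
  have hc : Continuous fun p : ℝ × (Fin n → ℝ) => fderiv ℝ G (Fin.cons p.1 p.2) (Pi.single 0 1) :=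
    ((hG.continuous_fderiv one_ne_zero).comp (Continuous.finCons (A := fun _ : Fin (n + 1) => ℝ) continuous_fst continuous_snd)).clm_apply
      continuous_const
  obtain ⟨B, hB⟩ := ((isCompact_closedBall a 1).prod (isCompact_cube n L)).exists_bound_of_continuousOn
    hc.continuousOn
  have : IsFiniteMeasure (volume.restrict (cube n L)) :=
    ⟨by rw [Measure.restrict_apply_univ]; exact (isCompact_cube n L).measure_lt_top⟩
  refine (hasDerivAt_integral_of_dominated_loc_of_deriv_le (Metric.closedBall_mem_nhds a one_pos)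
    (Eventually.of_forall fun t => (continuous_slice hG.continuous t).aestronglyMeasurable)
    (integrableOn_cube (continuous_slice hG.continuous a))
    (F' := fun t y => fderiv ℝ G (Fin.cons t y) (Pi.single 0 1))
    (hc.comp (Continuous.prodMk_right a)).aestronglyMeasurable
    (bound := fun _ => B) ?_ (integrable_const B) ?_).2
  · exact (ae_restrict_iff' (measurableSet_cube n L)).mpr
      (Eventually.of_forall fun y hy t ht => hB (t, y) ⟨ht, hy⟩)
  · exact Eventually.of_forall fun y t _ =>
      (hG.differentiable one_ne_zero _).hasFDerivAt.comp_hasDerivAt t (hasDerivAt_cons t y)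

theorem two_term_le {A C q r : ℝ} (h : q ^ 2 + r ^ 2 = 1) : q * A + r * C ≤ √(A ^ 2 + C ^ 2) := by
  refine le_sqrt_of_sq_le ?_
  nlinarith [_root_.sq_nonneg (q * C - r * A), congrArg (· * (A ^ 2 + C ^ 2)) h]

theorem amgm_step {n : ℕ} {D r c m J Z p : ℝ} (hr : 0 ≤ r) (hc : 0 < c) (hm : 0 < m) (hJ : 0 < J)
    (hZ : 0 < Z) (hp : 0 < p) (hD : 0 ≤ D) (hDr : D * r ^ n = J / Z * m)
    (h0 : n = 0 → c * p = m) :
    ((n : ℝ) + 1) * (c * J / Z) ^ ((1 : ℝ) / ((n : ℝ) + 1)) * p ^ ((1 : ℝ) / ((n : ℝ) + 1))
      ≤ D + r * ((n : ℝ) * (c / m) ^ ((1 : ℝ) / n) * p ^ ((1 : ℝ) / n)) := by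
  rw [mul_assoc, ← mul_rpow (by positivity) hp.le]
  rcases Nat.eq_zero_or_pos n with rfl | hn
  · simp only [pow_zero, mul_one] at hDr
    simp [hDr, ← h0 rfl]
    field_simp
    rfl
  have hn' : (0 : ℝ) < n := by exact_mod_cast hn
  set w := r * (c / m * p) ^ ((1 : ℝ) / n) with hw
  have hw0 : 0 ≤ w := by positivity
  have key := geom_mean_le_arith_mean2_weighted (w₁ := (1 : ℝ) / ((n : ℝ) + 1))
    (w₂ := (n : ℝ) / ((n : ℝ) + 1)) (p₁ := D) (p₂ := w) (by positivity) (by positivity) hD hw0
    (by field_simp; ring)
  have e : D ^ ((1 : ℝ) / ((n : ℝ) + 1)) * w ^ ((n : ℝ) / ((n : ℝ) + 1))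
      = (c * J / Z * p) ^ ((1 : ℝ) / ((n : ℝ) + 1)) := by
    rw [show (n : ℝ) / ((n : ℝ) + 1) = (n : ℝ) * ((1 : ℝ) / ((n : ℝ) + 1)) by ring,
      rpow_mul hw0, rpow_natCast, ← mul_rpow hD (pow_nonneg hw0 n)]
    congr 1
    rw [hw, mul_pow, ← rpow_natCast ((c / m * p) ^ _) n, ← rpow_mul (by positivity),
      one_div_mul_cancel hn'.ne', rpow_one, ← mul_assoc, hDr]
    field_simp
  rw [e] at key
  calc ((n : ℝ) + 1) * (c * J / Z * p) ^ ((1 : ℝ) / ((n : ℝ) + 1))
      ≤ ((n : ℝ) + 1) * (1 / ((n : ℝ) + 1) * D + (n : ℝ) / ((n : ℝ) + 1) * w) :=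
        mul_le_mul_of_nonneg_left key (by positivity)
    _ = D + (n : ℝ) * w := by field_simp
    _ = D + r * ((n : ℝ) * (c / m) ^ ((1 : ℝ) / n) * p ^ ((1 : ℝ) / n)) := by
        rw [hw, mul_rpow (by positivity) hp.le]; ring

theorem knothe : ∀ (n : ℕ) (L : ℝ), 0 < L → ∀ ρ G : (Fin n → ℝ) → ℝ, Continuous ρ →
    (∀ x, 0 < ρ x) → ContDiff ℝ 1 G → (∀ x, 0 ≤ G x) → ∀ B : ℝ, 0 ≤ B →
    (∀ x ∈ cube n L, ∀ k, x k = L → G x ≤ B) →
    (n : ℝ) * (cprod n / ∫ x in cube n L, ρ x) ^ ((1 : ℝ) / n) *
        (∫ x in cube n L, ρ x ^ ((1 : ℝ) / n) * G x)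
      ≤ (∫ x in cube n L, negGrad G x) + (n : ℝ) * B * L ^ (n - 1) := by
  intro n
  induction n with
  | zero =>
      intro L hL ρ G _ _ _ _ B _ _
      simp only [Nat.cast_zero, zero_mul, add_zero]
      exact setIntegral_nonneg (measurableSet_cube _ _) fun x _ => negGrad_nonneg G x
  | succ n ih =>
      intro L hL ρ G hρc hρ hG hG0 B hB0 hB
      have hGc := hG.continuous
      have hpos : ∀ a : ℝ, 0 < ∫ y in cube n L, ρ (Fin.cons a y) := by
        intro a
        obtain ⟨x₀, hx₀, hmin⟩ := (isCompact_cube n L).exists_isMinOn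
          ⟨0, ⟨le_rfl, fun _ => hL.le⟩⟩ (continuous_slice hρc a).continuousOn
        calc (0 : ℝ) < ρ (Fin.cons a x₀) * (volume (cube n L)).toReal := by
              rw [volume_cube n hL.le]; exact mul_pos (hρ _) (pow_pos hL n)
          _ = ∫ _ in cube n L, ρ (Fin.cons a x₀) := by
              rw [setIntegral_const, smul_eq_mul, measureReal_def]; ring
          _ ≤ ∫ y in cube n L, ρ (Fin.cons a y) :=
              setIntegral_mono_on (integrableOn_const (isCompact_cube n L).measure_lt_top.ne)
                (integrableOn_cube (continuous_slice hρc a)) (measurableSet_cube n L)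
                fun y hy => hmin hy
      set m := fun a : ℝ => ∫ y in cube n L, ρ (Fin.cons a y) with hm
      have hmc : Continuous m := continuous_integral_slice hρc
      set Z := ∫ x in cube (n + 1) L, ρ x with hZdef
      have hZ : Z = ∫ a in (0 : ℝ)..L, m a := cube_split hL.le hρc
      have hZ0 : 0 < Z := by
        rw [hZ]
        exact intervalIntegral.integral_pos hL hmc.continuousOn (fun a _ => (hpos a).le)
          ⟨0, left_mem_Icc.mpr hL.le, hpos 0⟩
      set s := fun a : ℝ => J n / Z * ∫ u in (0 : ℝ)..a, m u with hs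
      have hsd : ∀ a, HasDerivAt s (J n / Z * m a) a := fun a =>
        ((hmc.integral_hasStrictDerivAt 0 a).hasDerivAt).const_mul _
      have hsmono : StrictMono s := strictMono_of_hasDerivAt_pos hsd fun a =>
        mul_pos (div_pos (J_pos n) hZ0) (hpos a)
      have hs0 : s 0 = 0 := by simp [hs]
      have hsL : s L = J n := by
        simp only [hs, ← hZ]; rw [div_mul_cancel₀ _ hZ0.ne']
      set q := fun a => quant n (s a) with hq
      have hqc : Continuous q := (continuous_quant n).comp
        (continuous_iff_continuousAt.mpr fun a => (hsd a).continuousAt)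
      have hqI : ∀ a ∈ Icc (0 : ℝ) L, q a ∈ Icc (0 : ℝ) 1 := fun a ha =>
        quant_mem_Icc n ⟨hs0 ▸ hsmono.monotone ha.1, hsL ▸ hsmono.monotone ha.2⟩
      set r := fun a => √(1 - q a ^ 2) with hr
      have hrc : Continuous r := continuous_sqrt.comp (continuous_const.sub (hqc.pow 2))
      set D := fun a => (r a ^ n)⁻¹ * (J n / Z * m a) with hD
      have hsI : ∀ a ∈ Ioo (0 : ℝ) L, s a ∈ Ioo 0 (J n) := fun a ha =>
        ⟨hs0 ▸ hsmono ha.1, hsL ▸ hsmono ha.2⟩
      have hqd : ∀ a ∈ Ioo (0 : ℝ) L, HasDerivAt q (D a) a := fun a ha =>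
        (hasDerivAt_quant n (hsI a ha)).comp a (hsd a)
      have hD0 : ∀ a, 0 ≤ D a := fun a =>
        mul_nonneg (inv_nonneg.mpr (pow_nonneg (sqrt_nonneg _) n))
          (mul_pos (div_pos (J_pos n) hZ0) (hpos a)).le
      have hDi : IntervalIntegrable D volume 0 L := by
        refine intervalIntegral.intervalIntegrable_deriv_of_nonneg hqc.continuousOn ?_ fun a _ => hD0 a
        rwa [min_eq_left hL.le, max_eq_right hL.le]
      set H := fun a : ℝ => ∫ y in cube n L, G (Fin.cons a y) with hH
      set H' := fun a : ℝ => ∫ y in cube n L, fderiv ℝ G (Fin.cons a y) (Pi.single 0 1) with hH'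
      have hdc : Continuous fun x => fderiv ℝ G x (Pi.single 0 1) :=
        (hG.continuous_fderiv one_ne_zero).clm_apply continuous_const
      have hH'c : Continuous H' := continuous_integral_slice hdc
      have hHd : ∀ a, HasDerivAt H (H' a) a := fun a => hasDerivAt_integral_slice hG a
      have hparts : ∫ a in (0 : ℝ)..L, H a * D a = H L - ∫ a in (0 : ℝ)..L, H' a * q a := by
        rw [intervalIntegral.integral_mul_deriv_eq_deriv_mul_of_hasDerivAt
          (fun a _ => (hHd a).continuousAt.continuousWithinAt) hqc.continuousOn (fun a _ => hHd a)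
          (by rwa [min_eq_left hL.le, max_eq_right hL.le]) (hH'c.intervalIntegrable _ _) hDi]
        simp [hq, hs0, hsL, quant_zero, quant_J]
      have hHL : H L ≤ B * L ^ n := by
        calc H L ≤ ∫ _ in cube n L, B := setIntegral_mono_on
              (integrableOn_cube (continuous_slice hGc L))
              (integrableOn_const (isCompact_cube n L).measure_lt_top.ne) (measurableSet_cube n L)
              fun y hy => hB _ (cons_mem_cube ⟨hL.le, le_rfl⟩ hy) 0 (by simp)
          _ = B * L ^ n := by rw [setIntegral_const, smul_eq_mul, measureReal_def, volume_cube n hL.le, mul_comm]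
      set Ns := fun a : ℝ => ∫ y in cube n L, negGrad (fun z => G (Fin.cons a z)) y with hNs
      set N := fun a : ℝ => ∫ y in cube n L, negGrad G (Fin.cons a y) with hN
      have hGs : ∀ a : ℝ, ContDiff ℝ 1 fun z : Fin n → ℝ => G (Fin.cons a z) := by
        intro a
        refine hG.comp (contDiff_pi.mpr fun i => ?_)
        cases i using Fin.cases with
        | zero => simpa using (contDiff_const (c := a))
        | succ j => simpa using contDiff_apply ℝ ℝ j
      have hNsc : Continuous Ns := by
        have e : ∀ a : ℝ, ∀ y : Fin n → ℝ, negGrad (fun z => G (Fin.cons a z)) y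
            = √(∑ k : Fin n, max (-(fderiv ℝ G (Fin.cons a y) (Pi.single k.succ 1))) 0 ^ 2) := by
          intro a y
          simp only [negGrad, fderiv_slice (hG.differentiable one_ne_zero)]
        simp only [hNs, e]
        exact continuous_integral_slice
          (F := fun x => √(∑ k : Fin n, max (-(fderiv ℝ G x (Pi.single k.succ 1))) 0 ^ 2))
          (continuous_sqrt.comp (continuous_finsetSum _ fun k _ =>
            ((((hG.continuous_fderiv one_ne_zero).clm_apply continuous_const)).neg.max
              continuous_const).pow 2))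
      have hNc : Continuous N := continuous_integral_slice (continuous_negGrad hG)
      have hcs : ∀ a ∈ Icc (0 : ℝ) L, -(H' a * q a) + r a * Ns a ≤ N a := by
        intro a ha
        have hqa := hqI a ha
        have hsq : q a ^ 2 + r a ^ 2 = 1 := by
          simp only [hr]; rw [sq_sqrt (by nlinarith [hqa.1, hqa.2])]; ring
        simp only [hH', hNs, hN]
        rw [← integral_mul_const, ← integral_neg, ← integral_const_mul, ← integral_add]
        · refine setIntegral_mono_on ?_ (integrableOn_cube (continuous_slice (continuous_negGrad hG) a))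
            (measurableSet_cube n L) fun y _ => ?_
          · exact integrableOn_cube (((continuous_slice hdc a).mul continuous_const).neg.add
              (continuous_const.mul (continuous_negGrad (hGs a))))
          · have h1 : -(fderiv ℝ G (Fin.cons a y) (Pi.single 0 1) * q a)
                ≤ q a * max (-(fderiv ℝ G (Fin.cons a y) (Pi.single 0 1))) 0 := by
              nlinarith [mul_le_mul_of_nonneg_left
                (le_max_left (-(fderiv ℝ G (Fin.cons a y) (Pi.single 0 1))) 0) hqa.1]
            refine le_trans (add_le_add_left h1 _) ((two_term_le hsq).trans (le_of_eq ?_))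
            simp only [negGrad, fderiv_slice (hG.differentiable one_ne_zero)]
            rw [sq_sqrt (by positivity), Fin.sum_univ_succ]
        · exact (integrableOn_cube ((continuous_slice hdc a).mul continuous_const)).neg
        · exact integrableOn_cube (continuous_const.mul (continuous_negGrad (hGs a)))
      set K := ((n : ℝ) + 1) * (cprod n * J n / Z) ^ ((1 : ℝ) / ((n : ℝ) + 1)) with hK
      set X := fun a : ℝ => ∫ y in cube n L, ρ (Fin.cons a y) ^ ((1 : ℝ) / ((n : ℝ) + 1)) * G (Fin.cons a y) with hX
      have hρr : ∀ e : ℝ, Continuous fun x => ρ x ^ e * G x := fun e =>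
        (hρc.rpow_const fun x => Or.inl (hρ x).ne').mul hGc
      have hXc : Continuous X := continuous_integral_slice (hρr _)
      have hmain : ∀ a ∈ Ioo (0 : ℝ) L,
          K * X a ≤ H a * D a + r a * Ns a + (n : ℝ) * B * L ^ (n - 1) := by
        intro a ha
        have hqa := quant_mem_Ioo n (hsI a ha)
        have hrpos : 0 < r a := sqrt_pos.mpr (by simp only [hq]; nlinarith [hqa.1, hqa.2])
        have hr1 : r a ≤ 1 := sqrt_le_one.mpr (by nlinarith [_root_.sq_nonneg (q a)])
        have hslice := ih L hL (fun y => ρ (Fin.cons a y)) (fun y => G (Fin.cons a y))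
          (continuous_slice hρc a) (fun y => hρ _) (hGs a) (fun y => hG0 _) B hB0
          (fun y hy k hk => hB _ (cons_mem_cube (Ioo_subset_Icc_self ha) hy) k.succ (by simpa using hk))
        have hpt : ∀ y ∈ cube n L, K * (ρ (Fin.cons a y) ^ ((1 : ℝ) / ((n : ℝ) + 1)) * G (Fin.cons a y))
            ≤ D a * G (Fin.cons a y) + r a * ((n : ℝ) * (cprod n / m a) ^ ((1 : ℝ) / n) *
                (ρ (Fin.cons a y) ^ ((1 : ℝ) / n) * G (Fin.cons a y))) := by
          intro y _
          have hstep := amgm_step (n := n) (D := D a) (r := r a) (c := cprod n) (m := m a)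
            (J := J n) (Z := Z) (p := ρ (Fin.cons a y)) hrpos.le (cprod_pos n) (hpos a) (J_pos n)
            hZ0 (hρ _) (hD0 a) (by simp only [hD]; field_simp) (fun h0 => by
              subst h0
              simp only [hm, cprod, Finset.range_zero, Finset.prod_empty, one_mul]
              have : (fun z : Fin 0 → ℝ => ρ (Fin.cons a z)) = fun _ => ρ (Fin.cons a y) := by
                funext z; rw [Subsingleton.elim z y]
              rw [this, setIntegral_const, smul_eq_mul, measureReal_def, volume_cube 0 hL.le, pow_zero, one_mul])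
          have := mul_le_mul_of_nonneg_right hstep (hG0 (Fin.cons a y))
          simp only [hK]
          linarith
        have hint := setIntegral_mono_on (μ := volume)
          ((integrableOn_cube (continuous_slice (hρr _) a)).const_mul K)
          (((integrableOn_cube (continuous_slice hGc a)).const_mul (D a)).add
            (((integrableOn_cube (continuous_slice (hρr _) a)).const_mul _).const_mul _))
          (measurableSet_cube n L) hpt
        simp only [Pi.add_apply] at hint
        rw [integral_const_mul, integral_add ((integrableOn_cube (continuous_slice hGc a)).const_mul (D a))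
          (((integrableOn_cube (continuous_slice (hρr _) a)).const_mul _).const_mul _),
          integral_const_mul, integral_const_mul, integral_const_mul] at hint
        have h1 := mul_le_mul_of_nonneg_left hslice hrpos.le
        have h2 : r a * ((n : ℝ) * B * L ^ (n - 1)) ≤ 1 * ((n : ℝ) * B * L ^ (n - 1)) :=
          mul_le_mul_of_nonneg_right hr1 (by positivity)
        simp only [hX, hH, hNs]
        linarith
      have hi1 := hDi.continuousOn_mul
        (continuous_iff_continuousAt.mpr fun a => (hHd a).continuousAt).continuousOn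
      have hi2 : IntervalIntegrable (fun a => r a * Ns a) volume 0 L :=
        (hrc.mul hNsc).intervalIntegrable _ _
      have hI1 := intervalIntegral.integral_mono_on_of_le_Ioo hL.le
        ((continuous_const.mul hXc).intervalIntegrable 0 L) ((hi1.add hi2).add intervalIntegrable_const) hmain
      simp only [Pi.mul_apply] at hI1
      rw [intervalIntegral.integral_const_mul, intervalIntegral.integral_add (hi1.add hi2) intervalIntegrable_const,
        intervalIntegral.integral_add hi1 hi2, intervalIntegral.integral_const, hparts, smul_eq_mul,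
        sub_zero] at hI1
      have hI2 := intervalIntegral.integral_mono_on hL.le
        ((((hH'c.mul hqc).neg.add (hrc.mul hNsc))).intervalIntegrable (μ := volume) 0 L) (hNc.intervalIntegrable (μ := volume) 0 L) hcs
      simp only [Pi.add_apply, Pi.mul_apply, Pi.neg_apply] at hI2
      rw [intervalIntegral.integral_add ((hH'c.fun_mul hqc).fun_neg.intervalIntegrable (μ := volume) (0 : ℝ) L) hi2,
        intervalIntegral.integral_neg] at hI2
      have hLn : L * ((n : ℝ) * B * L ^ (n - 1)) = (n : ℝ) * B * L ^ n := by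
        rcases n with _ | j
        · simp
        · simp only [Nat.add_sub_cancel, pow_succ]; ring
      rw [cube_split hL.le (hρr _), cube_split hL.le (continuous_negGrad hG), Nat.cast_succ,
        cprod_succ, Nat.add_sub_cancel]
      simp only [hK, hX, hN] at hI1 hI2
      linarith

end Vale.Agent.P219
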