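import Mathlib
import Vale.Agent.P219.Orthant
import Vale.Agent.P219.Const

/-!
The Euclidean isoperimetric (Sobolev) inequality for monotone conformal factors on orthants.
-/

namespace Vale.Agent.P219

open MeasureTheory Set Real Filter
open scoped Topology

/-- The Euclidean length of the gradient. -/
noncomputable def gradLen {n : ℕ} (f : (Fin n → ℝ) → ℝ) (x : Fin n → ℝ) : ℝ :=
  √(∑ k, fderiv ℝ f x (Pi.single k 1) ^ 2)

theorem continuous_gradLen {n : ℕ} {f : (Fin n → ℝ) → ℝ} (hf : ContDiff ℝ 1 f) :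
    Continuous (gradLen f) :=
  continuous_sqrt.comp (continuous_finsetSum _ fun _ _ =>
    ((hf.continuous_fderiv one_ne_zero).clm_apply continuous_const).pow 2)

theorem fderiv_single_nonneg {n : ℕ} {φ : (Fin n → ℝ) → ℝ} (hφ : Differentiable ℝ φ)
    (hm : ∀ x y : Fin n → ℝ, 0 ≤ x → x ≤ y → φ x ≤ φ y) {x : Fin n → ℝ} (hx : 0 ≤ x) (k : Fin n) :
    0 ≤ fderiv ℝ φ x (Pi.single k 1) := by
  set e : Fin n → ℝ := Pi.single k 1
  have he : (0 : Fin n → ℝ) ≤ e := Pi.single_nonneg.mpr zero_le_one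
  have hl : HasDerivAt (fun t : ℝ => φ (x + t • e)) (fderiv ℝ φ x e) 0 := by
    have h1 : HasDerivAt (fun t : ℝ => x + t • e) e 0 := by
      simpa using ((hasDerivAt_id' (0 : ℝ)).smul_const e).const_add x
    have h2 : HasFDerivAt φ (fderiv ℝ φ x) (x + (0 : ℝ) • e) := by
      simpa using (hφ x).hasFDerivAt
    exact h2.comp_hasDerivAt 0 h1
  refine ge_of_tendsto (hasDerivWithinAt_iff_tendsto_slope' (notMem_Ioi.mpr le_rfl) |>.mp
    (hl.hasDerivWithinAt (s := Ioi 0))) (eventually_of_mem self_mem_nhdsWithin fun t ht => ?_)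
  rw [slope_def_field]
  have ht0 : 0 < t := ht
  refine div_nonneg (sub_nonneg.mpr (hm _ _ (by simpa using hx) ?_)) (by linarith)
  simp only [zero_smul, add_zero]
  exact le_add_of_nonneg_right (smul_nonneg ht0.le he)

theorem cube_inequality {n : ℕ} (hn : 2 ≤ n) {φ f : (Fin n → ℝ) → ℝ} (hφ : ContDiff ℝ 1 φ)
    (hm : ∀ x y : Fin n → ℝ, 0 ≤ x → x ≤ y → φ x ≤ φ y) (hf : ContDiff ℝ 1 f) {L : ℝ} (hL : 0 < L)
    (hfL : ∀ x ∈ cube n L, ∀ k, x k = L → f x = 0) :
    (n : ℝ) * cprod n ^ ((1 : ℝ) / n) *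
        (∫ x in cube n L, exp ((n : ℝ) * φ x) * |f x| ^ ((n : ℝ) / ((n : ℝ) - 1)))
          ^ (((n : ℝ) - 1) / n)
      ≤ ∫ x in cube n L, exp (((n : ℝ) - 1) * φ x) * gradLen f x := by
  have hn2 : (2 : ℝ) ≤ n := by exact_mod_cast hn
  have hn1 : (0 : ℝ) < (n : ℝ) - 1 := by linarith
  set p := (n : ℝ) / ((n : ℝ) - 1) with hp
  have hp0 : 0 < p := div_pos (by linarith) hn1
  set w := fun x => exp (((n : ℝ) - 1) * φ x) with hw
  have hwc : ContDiff ℝ 1 w := (contDiff_const.mul hφ).exp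
  obtain ⟨M, hM⟩ := (isCompact_cube n L).exists_bound_of_continuousOn hwc.continuous.continuousOn
  have hM0 : 0 ≤ M := (norm_nonneg _).trans (hM 0 ⟨le_rfl, fun _ => hL.le⟩)
  refine le_of_forall_pos_le_add fun ε hε => ?_
  set δ := ε / ((n : ℝ) * M * L ^ (n - 1) + 1) with hδ
  have hδ0 : 0 < δ := div_pos hε (by positivity)
  set g := fun x => √(f x ^ 2 + δ ^ 2) with hg
  have hgpos : ∀ x, 0 < g x := fun x => sqrt_pos.mpr (by positivity)
  have hgc : ContDiff ℝ 1 g := ((hf.pow 2).add contDiff_const).sqrt fun x => by positivity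
  set G := fun x => w x * g x with hG
  have hGc : ContDiff ℝ 1 G := hwc.mul hgc
  have hGpos : ∀ x, 0 < G x := fun x => mul_pos (exp_pos _) (hgpos x)
  set ρ := fun x => G x ^ p with hρ
  have hρc : Continuous ρ := hGc.continuous.rpow_const fun x => Or.inr hp0.le
  have hB : ∀ x ∈ cube n L, ∀ k, x k = L → G x ≤ M * δ := fun x hx k hk => by
    have : g x = δ := by simp [hg, hfL x hx k hk, sqrt_sq hδ0.le]
    simp only [hG, this]
    exact mul_le_mul_of_nonneg_right ((le_abs_self _).trans (hM x hx)) hδ0.le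
  have key := knothe n L hL ρ G hρc (fun x => rpow_pos_of_pos (hGpos x) p) hGc
    (fun x => (hGpos x).le) (M * δ) (mul_nonneg hM0 hδ0.le) hB
  have hρG : ∀ x, ρ x ^ ((1 : ℝ) / n) * G x = ρ x := fun x => by
    simp only [hρ]
    rw [← rpow_mul (hGpos x).le, ← rpow_add_one (hGpos x).ne']
    congr 1
    rw [hp]
    field_simp
    ring
  simp only [hρG] at key
  set Z := ∫ x in cube n L, ρ x
  have hZ0 : ∫ x in cube n L, exp ((n : ℝ) * φ x) * |f x| ^ p ≤ Z := by
    refine setIntegral_mono_on (integrableOn_cube (((continuous_const.mul hφ.continuous).rexp).mul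
      (hf.continuous.abs.rpow_const fun x => Or.inr hp0.le))) (integrableOn_cube hρc)
      (measurableSet_cube n L) fun x _ => ?_
    simp only [hρ, hG, hw]
    rw [mul_rpow (exp_pos _).le (hgpos x).le, ← exp_mul,
      show ((n : ℝ) - 1) * φ x * p = (n : ℝ) * φ x by rw [hp]; field_simp]
    refine mul_le_mul_of_nonneg_left (rpow_le_rpow (abs_nonneg _) ?_ hp0.le) (exp_pos _).le
    exact abs_le_sqrt (by nlinarith)
  have hN : ∫ x in cube n L, negGrad G x ≤ ∫ x in cube n L, w x * gradLen f x := by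
    refine setIntegral_mono_on (integrableOn_cube (continuous_negGrad hGc))
      (integrableOn_cube (hwc.continuous.mul (continuous_gradLen hf))) (measurableSet_cube n L)
      fun x hx => ?_
    simp only [negGrad, gradLen, hw]
    rw [← sqrt_sq (exp_pos (((n : ℝ) - 1) * φ x)).le, ← sqrt_mul (_root_.sq_nonneg _),
      Finset.mul_sum]
    refine sqrt_le_sqrt (Finset.sum_le_sum fun k _ => ?_)
    have hd := fderiv_single_nonneg (hφ.differentiable one_ne_zero) hm hx.1 k
    set a := fderiv ℝ φ x (Pi.single k 1) with ha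
    set b := fderiv ℝ f x (Pi.single k 1) with hb
    have e : fderiv ℝ G x (Pi.single k 1)
        = (((n : ℝ) - 1) * a * g x + f x * b / g x) * exp (((n : ℝ) - 1) * φ x) := by
      have h1 := (((hφ.differentiable one_ne_zero x).hasFDerivAt.const_mul ((n : ℝ) - 1)).exp.fun_mul
        ((((hf.differentiable one_ne_zero x).hasFDerivAt.pow 2).add_const (δ ^ 2)).sqrt
          (show f x ^ 2 + δ ^ 2 ≠ 0 by positivity))).fderiv
      rw [show fderiv ℝ G x = _ from h1]
      simp [← ha, ← hb, hg, hw]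
      field_simp
      ring
    have habs : |f x * b / g x| ≤ |b| := by
      rw [abs_div, abs_of_pos (hgpos x), div_le_iff₀ (hgpos x), abs_mul]
      calc |f x| * |b| ≤ g x * |b| :=
            mul_le_mul_of_nonneg_right (abs_le_sqrt (by nlinarith)) (abs_nonneg _)
        _ = |b| * g x := mul_comm _ _
    rw [e]
    have hpos : 0 ≤ ((n : ℝ) - 1) * a * g x := by have := hgpos x; positivity
    have hle : max (-((((n : ℝ) - 1) * a * g x + f x * b / g x) * exp (((n : ℝ) - 1) * φ x))) 0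
        ≤ exp (((n : ℝ) - 1) * φ x) * |b| := by
      refine max_le ?_ (by positivity)
      nlinarith [exp_pos (((n : ℝ) - 1) * φ x), neg_le_abs (f x * b / g x)]
    calc _ ≤ (exp (((n : ℝ) - 1) * φ x) * |b|) ^ 2 :=
          pow_le_pow_left₀ (le_max_right _ _) hle 2
      _ = _ := by rw [mul_pow, sq_abs]
  have hc := (cprod_pos n).le
  have hA : 0 ≤ ∫ x in cube n L, exp ((n : ℝ) * φ x) * |f x| ^ p :=
    setIntegral_nonneg (measurableSet_cube n L) fun x _ => by positivity
  have hexp : 0 ≤ ((n : ℝ) - 1) / n := div_nonneg hn1.le (by linarith)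
  have hlhs : cprod n ^ ((1 : ℝ) / n) *
      (∫ x in cube n L, exp ((n : ℝ) * φ x) * |f x| ^ p) ^ (((n : ℝ) - 1) / n)
      ≤ (cprod n / Z) ^ ((1 : ℝ) / n) * Z := by
    rcases eq_or_lt_of_le (hA.trans hZ0) with h0 | h0
    · have h1 : ∫ x in cube n L, exp ((n : ℝ) * φ x) * |f x| ^ p = 0 := le_antisymm (h0 ▸ hZ0) hA
      rw [h1, zero_rpow (div_pos hn1 (by linarith)).ne', mul_zero, ← h0, mul_zero]
    · calc _ ≤ cprod n ^ ((1 : ℝ) / n) * Z ^ (((n : ℝ) - 1) / n) :=
            mul_le_mul_of_nonneg_left (rpow_le_rpow hA hZ0 hexp) (rpow_nonneg hc _)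
        _ = _ := by
          rw [show ((n : ℝ) - 1) / n = 1 - 1 / n by field_simp, rpow_sub h0, rpow_one,
            div_rpow hc h0.le]
          ring
  have hbd : (n : ℝ) * (M * δ) * L ^ (n - 1) ≤ ε := by
    rw [show (n : ℝ) * (M * δ) * L ^ (n - 1) = δ * ((n : ℝ) * M * L ^ (n - 1)) by ring, hδ,
      div_mul_eq_mul_div, div_le_iff₀ (by positivity)]
    nlinarith
  have := mul_le_mul_of_nonneg_left hlhs (Nat.cast_nonneg (α := ℝ) n)
  simp only [hw] at hN
  linarith

theorem exists_cube_support {n : ℕ} {f : (Fin n → ℝ) → ℝ} (hs : HasCompactSupport f) :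
    ∃ L, 0 < L ∧ ∀ x : Fin n → ℝ, (∃ k, L ≤ |x k|) → x ∉ tsupport f := by
  obtain ⟨R, hR⟩ := hs.isCompact.isBounded.subset_closedBall 0
  refine ⟨|R| + 1, by positivity, fun x ⟨k, hk⟩ hx => ?_⟩
  have h := hR hx
  rw [Metric.mem_closedBall, dist_zero_right] at h
  have := (norm_le_pi_norm x k).trans h
  rw [Real.norm_eq_abs] at this
  linarith [le_abs_self R]

theorem orthant_inequality {n : ℕ} (hn : 2 ≤ n) {φ f : (Fin n → ℝ) → ℝ} (hφ : ContDiff ℝ 1 φ)
    (hm : ∀ x y : Fin n → ℝ, 0 ≤ x → x ≤ y → φ x ≤ φ y) (hf : ContDiff ℝ 1 f)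
    (hs : HasCompactSupport f) :
    (n : ℝ) * ((volume (Metric.ball (0 : EuclideanSpace ℝ (Fin n)) 1)).toReal / 2 ^ n) ^ ((1 : ℝ) / n) *
        (∫ x in Ici (0 : Fin n → ℝ), exp ((n : ℝ) * φ x) * |f x| ^ ((n : ℝ) / ((n : ℝ) - 1)))
          ^ (((n : ℝ) - 1) / n)
      ≤ ∫ x in Ici (0 : Fin n → ℝ), exp (((n : ℝ) - 1) * φ x) * gradLen f x := by
  have hn2 : (2 : ℝ) ≤ n := by exact_mod_cast hn
  obtain ⟨L, hL, hout⟩ := exists_cube_support hs
  have hzero : ∀ x ∈ Ici (0 : Fin n → ℝ) \ cube n L, x ∉ tsupport f := fun x hx => by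
    obtain ⟨hx0, hx1⟩ := hx
    simp only [cube, mem_Icc, Pi.le_def, not_and, not_forall, not_le] at hx1
    obtain ⟨k, hk⟩ := hx1 hx0
    exact hout x ⟨k, by linarith [le_abs_self (x k)]⟩
  have hsub : cube n L ⊆ Ici (0 : Fin n → ℝ) := fun x hx => hx.1
  rw [setIntegral_eq_of_subset_of_forall_sdiff_eq_zero measurableSet_Ici hsub fun x hx => by
      simp [image_eq_zero_of_notMem_tsupport (hzero x hx),
        zero_rpow (div_pos (by linarith : (0 : ℝ) < n) (by linarith : (0 : ℝ) < (n : ℝ) - 1)).ne'],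
    setIntegral_eq_of_subset_of_forall_sdiff_eq_zero measurableSet_Ici hsub fun x hx => by
      simp [gradLen, fderiv_of_notMem_tsupport (𝕜 := ℝ) (hzero x hx)],
    ← cprod_eq]
  exact cube_inequality hn hφ hm hf hL fun x hx k hk =>
    image_eq_zero_of_notMem_tsupport (hout x ⟨k, by rw [hk, abs_of_pos hL]⟩)

theorem integral_eq_two_pow_mul : ∀ (n : ℕ) (F : (Fin n → ℝ) → ℝ) (L : ℝ), 0 < L → Continuous F →
    (∀ x, (∃ k, L ≤ |x k|) → F x = 0) → (∀ x, F (fun i => |x i|) = F x) →
    ∫ x, F x = 2 ^ n * ∫ x in cube n L, F x := by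
  intro n
  induction n with
  | zero =>
      intro F L hL _ _ _
      rw [show cube 0 L = univ from eq_univ_of_forall fun x => ⟨fun i => i.elim0, fun i => i.elim0⟩]
      simp
  | succ n ih =>
      intro F L hL hF hout hev
      have hFs : HasCompactSupport F := by
        refine HasCompactSupport.of_support_subset_isCompact
          (isCompact_closedBall (0 : Fin (n + 1) → ℝ) L) fun x hx => ?_
        rw [Metric.mem_closedBall, dist_zero_right, pi_norm_le_iff_of_nonneg hL.le]
        intro k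
        by_contra hk
        exact hx (hout x ⟨k, by rw [Real.norm_eq_abs] at hk; linarith⟩)
      have hmp := (volume_preserving_piFinSuccAbove (fun _ : Fin (n + 1) => ℝ) 0).symm
      have hint := hF.integrable_of_hasCompactSupport (μ := volume) hFs
      rw [← hmp.integrable_comp_emb (MeasurableEquiv.measurableEmbedding _)] at hint
      have e : ∀ p : ℝ × (Fin n → ℝ),
          (MeasurableEquiv.piFinSuccAbove (fun _ : Fin (n + 1) => ℝ) 0).symm p = Fin.cons p.1 p.2 := by
        intro p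
        simp [MeasurableEquiv.piFinSuccAbove_symm_apply, Fin.insertNthEquiv, Fin.insertNth_zero']
      rw [← hmp.integral_comp' F, Measure.volume_eq_prod, integral_prod _ (by
        simpa [Measure.volume_eq_prod, Function.comp_def] using hint)]
      simp only [e]
      have hin : ∀ a : ℝ, ∫ y, F (Fin.cons a y) = 2 ^ n * ∫ y in cube n L, F (Fin.cons |a| y) := by
        intro a
        have h1 : ∀ b y, F (Fin.cons |b| y) = F (Fin.cons b y) := fun b y => by
          rw [← hev, ← hev (Fin.cons b y)]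
          congr 1
          funext i
          cases i using Fin.cases <;> simp
        simp only [h1]
        refine ih _ L hL (continuous_slice hF a) (fun y ⟨k, hk⟩ => hout _ ⟨k.succ, by simpa using hk⟩)
          fun y => ?_
        rw [← hev (Fin.cons a y), ← hev (Fin.cons a fun i => |y i|)]
        congr 1
        funext i
        cases i using Fin.cases <;> simp
      simp only [hin, integral_const_mul]
      rw [integral_comp_abs (f := fun a => ∫ y in cube n L, F (Fin.cons a y)),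
        setIntegral_eq_of_subset_of_forall_sdiff_eq_zero measurableSet_Ioi
          (Ioc_subset_Ioi_self : Ioc 0 L ⊆ Ioi 0), cube_split hL.le hF,
        intervalIntegral.integral_of_le hL.le]
      · ring
      · intro a ha
        have : L < a := by
          by_contra hc
          exact ha.2 ⟨ha.1, le_of_not_gt hc⟩
        refine setIntegral_eq_zero_of_forall_eq_zero fun y _ => hout _ ⟨0, ?_⟩
        simp only [Fin.cons_zero]
        linarith [le_abs_self a]

theorem gradLen_abs {n : ℕ} {f : (Fin n → ℝ) → ℝ} (hf : Differentiable ℝ f)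
    (hev : ∀ x, f (fun i => |x i|) = f x) (x : Fin n → ℝ) :
    gradLen f (fun i => |x i|) = gradLen f x := by
  set σ : Fin n → ℝ := fun i => if x i < 0 then -1 else 1
  have hσ : ∀ i, |σ i| = 1 := fun i => by simp only [σ]; split_ifs <;> simp
  set S : (Fin n → ℝ) →L[ℝ] (Fin n → ℝ) :=
    ContinuousLinearMap.pi fun i => σ i • ContinuousLinearMap.proj i
  have hSx : S x = fun i => |x i| := by
    funext i
    simp only [S, σ, ContinuousLinearMap.pi_apply]
    by_cases h : x i < 0
    · simp [h, abs_of_neg h]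
    · simp [h, abs_of_nonneg (le_of_not_gt h)]
  have hinv : (f ∘ S) = f := by
    funext z
    rw [Function.comp_apply, ← hev, ← hev z]
    congr 1
    funext i
    simp [S, abs_mul, hσ]
  have h := ((hf (S x)).hasFDerivAt.comp x S.hasFDerivAt).fderiv
  rw [hinv, hSx] at h
  unfold gradLen
  refine congrArg _ (Finset.sum_congr rfl fun k _ => ?_)
  have hk : S (Pi.single k 1) = σ k • Pi.single k (1 : ℝ) := by
    funext i
    by_cases hik : i = k
    · subst hik; simp [S]
    · simp [S, hik]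
  rw [h, ContinuousLinearMap.comp_apply, hk, map_smul, smul_eq_mul, mul_pow, ← sq_abs (σ k), hσ]
  ring

theorem symmetric_inequality {n : ℕ} (hn : 2 ≤ n) {φ f : (Fin n → ℝ) → ℝ} (hφ : ContDiff ℝ 1 φ)
    (hm : ∀ x y : Fin n → ℝ, (∀ i, |x i| ≤ |y i|) → φ x ≤ φ y) (hf : ContDiff ℝ 1 f)
    (hs : HasCompactSupport f) (hev : ∀ x, f (fun i => |x i|) = f x) :
    (n : ℝ) * (volume (Metric.ball (0 : EuclideanSpace ℝ (Fin n)) 1)).toReal ^ ((1 : ℝ) / n) *
        (∫ x, exp ((n : ℝ) * φ x) * |f x| ^ ((n : ℝ) / ((n : ℝ) - 1))) ^ (((n : ℝ) - 1) / n)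
      ≤ ∫ x, exp (((n : ℝ) - 1) * φ x) * gradLen f x := by
  have hn2 : (2 : ℝ) ≤ n := by exact_mod_cast hn
  have hn1 : (0 : ℝ) < (n : ℝ) - 1 := by linarith
  have hp0 : 0 < (n : ℝ) / ((n : ℝ) - 1) := div_pos (by linarith) hn1
  obtain ⟨L, hL, hout⟩ := exists_cube_support hs
  have hφe : ∀ x, φ (fun i => |x i|) = φ x := fun x =>
    le_antisymm (hm _ _ fun i => (abs_abs _).le) (hm _ _ fun i => (abs_abs _).ge)
  have h1 := integral_eq_two_pow_mul n (fun x => exp ((n : ℝ) * φ x) * |f x| ^ ((n : ℝ) / ((n : ℝ) - 1)))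
    L hL ((continuous_const.mul hφ.continuous).rexp.mul
      (hf.continuous.abs.rpow_const fun x => Or.inr hp0.le))
    (fun x hx => by simp [image_eq_zero_of_notMem_tsupport (hout x hx), zero_rpow hp0.ne'])
    (fun x => by simp only [hφe, hev])
  have h2 := integral_eq_two_pow_mul n (fun x => exp (((n : ℝ) - 1) * φ x) * gradLen f x)
    L hL ((continuous_const.mul hφ.continuous).rexp.mul (continuous_gradLen hf))
    (fun x hx => by simp [gradLen, fderiv_of_notMem_tsupport (𝕜 := ℝ) (hout x hx)])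
    (fun x => by simp only [hφe, gradLen_abs (hf.differentiable one_ne_zero) hev])
  rw [h1, h2]
  have key := cube_inequality hn hφ (fun x y hx hxy => hm x y fun i => by
    rw [abs_of_nonneg (hx i), abs_of_nonneg ((hx i).trans (hxy i))]; exact hxy i) hf hL
    fun x _ k hk => image_eq_zero_of_notMem_tsupport (hout x ⟨k, by rw [hk, abs_of_pos hL]⟩)
  set A := ∫ x in cube n L, exp ((n : ℝ) * φ x) * |f x| ^ ((n : ℝ) / ((n : ℝ) - 1))
  have hA : 0 ≤ A := setIntegral_nonneg (measurableSet_cube n L) fun x _ => by positivity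
  rw [cprod_eq] at key
  set V := (volume (Metric.ball (0 : EuclideanSpace ℝ (Fin n)) 1)).toReal
  refine le_trans (le_of_eq ?_) (mul_le_mul_of_nonneg_left key (by positivity : (0 : ℝ) ≤ 2 ^ n))
  have h2n : (0 : ℝ) < 2 ^ n := by positivity
  rw [mul_rpow h2n.le hA, div_rpow ENNReal.toReal_nonneg h2n.le,
    show ((n : ℝ) - 1) / n = 1 - 1 / n by field_simp, rpow_sub h2n, rpow_one]
  have : (0 : ℝ) < ((2 : ℝ) ^ n) ^ ((1 : ℝ) / n) := rpow_pos_of_pos h2n _
  field_simp
  ring

theorem monotoneOn_conformal {f R : ℝ → ℝ} {a b : ℝ}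
    (hf : ∀ r ∈ Ioo a b, DifferentiableAt ℝ f r) (hf1 : ∀ r ∈ Ioo a b, 1 ≤ deriv f r)
    (hfp : ∀ r ∈ Ioo a b, 0 < f r) (hR : ∀ r ∈ Ioo a b, HasDerivAt R (R r / f r) r)
    (hRp : ∀ r ∈ Ioo a b, 0 < R r) : MonotoneOn (fun r => log (f r / R r)) (Ioo a b) := by
  have hd : ∀ r ∈ Ioo a b, HasDerivAt (fun r => log (f r / R r)) ((deriv f r - 1) / f r) r := by
    intro r hr
    have hfr := (hfp r hr).ne'
    have hRr := (hRp r hr).ne'
    refine (((hf r hr).hasDerivAt.div (hR r hr) hRr).log (div_ne_zero hfr hRr)).congr_deriv ?_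
    simp only [Pi.div_apply]
    field_simp
  refine monotoneOn_of_deriv_nonneg (convex_Ioo a b)
    (fun r hr => (hd r hr).continuousAt.continuousWithinAt)
    (fun r hr => (hd r (interior_subset hr)).differentiableAt.differentiableWithinAt) fun r hr => ?_
  have hr' := interior_subset hr
  rw [(hd r hr').deriv]
  exact div_nonneg (by linarith [hf1 r hr']) (hfp r hr').le

end Vale.Agent.P219
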