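import Mathlib
import Vale.Agent.P219.Main
import Vale.Agent.P219.Chart

/-!
The isoperimetric inequality for symmetric domains with regular boundary and monotone conformal
factors, with the boundary area as a Hausdorff integral.
-/

namespace Vale.Agent.P219

open MeasureTheory Set Real Filter Topology
open scoped ENNReal

/-- The functional inequality in the Euclidean model. -/
theorem symmetric_inequality_euclidean {n : ℕ} (hn : 2 ≤ n)
    {φ f : EuclideanSpace ℝ (Fin n) → ℝ} (hφ : ContDiff ℝ 1 φ)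
    (hm : ∀ x y : EuclideanSpace ℝ (Fin n), (∀ i, |x i| ≤ |y i|) → φ x ≤ φ y)
    (hf : ContDiff ℝ 1 f) (hs : HasCompactSupport f)
    (hev : ∀ x y : EuclideanSpace ℝ (Fin n), (∀ i, |x i| = |y i|) → f x = f y) :
    (n : ℝ) * (volume (Metric.ball (0 : EuclideanSpace ℝ (Fin n)) 1)).toReal ^ ((1 : ℝ) / n) *
        (∫ x, exp ((n : ℝ) * φ x) * |f x| ^ ((n : ℝ) / ((n : ℝ) - 1))) ^ (((n : ℝ) - 1) / n)
      ≤ ∫ x, exp (((n : ℝ) - 1) * φ x) * ‖fderiv ℝ f x‖ := by
  set L := (PiLp.continuousLinearEquiv 2 ℝ (fun _ : Fin n => ℝ)).symm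
  have hL : ∀ x, L x = WithLp.toLp 2 x := fun x => rfl
  have h := symmetric_inequality hn (φ := φ ∘ L) (f := f ∘ L) (hφ.comp L.contDiff)
    (fun x y h => hm _ _ fun i => h i) (hf.comp L.contDiff)
    (hs.comp_homeomorph L.toHomeomorph) (fun x => hev _ _ fun i => abs_abs (x i))
  have hg : ∀ x, gradLen (f ∘ L) x = ‖fderiv ℝ f (L x)‖ := by
    intro x
    set a := (InnerProductSpace.toDual ℝ (EuclideanSpace ℝ (Fin n))).symm (fderiv ℝ f (L x)) with ha
    have hn' : ‖fderiv ℝ f (L x)‖ = ‖a‖ := by simp [ha]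
    rw [hn', EuclideanSpace.norm_eq, gradLen]
    refine congrArg _ (Finset.sum_congr rfl fun k _ => ?_)
    rw [L.comp_right_fderiv, ContinuousLinearMap.comp_apply, Real.norm_eq_abs, sq_abs]
    have e : (L : (Fin n → ℝ) →L[ℝ] EuclideanSpace ℝ (Fin n)) (Pi.single k 1) =
        EuclideanSpace.single k 1 := by
      ext i
      simp [hL]
    rw [e, ← InnerProductSpace.toDual_symm_apply (y := fderiv ℝ f (L x)), ← ha]
    simp [EuclideanSpace.inner_single_right]
  simp only [hg, Function.comp_apply] at h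
  have hP := PiLp.volume_preserving_toLp (Fin n)
  have hemb : MeasurableEmbedding (WithLp.toLp 2 : (Fin n → ℝ) → EuclideanSpace ℝ (Fin n)) :=
    (MeasurableEquiv.toLp 2 (Fin n → ℝ)).measurableEmbedding
  simp only [hL] at h
  rw [← hP.integral_comp hemb, ← hP.integral_comp hemb]
  exact h

/-- The derivative of a smooth step. -/
noncomputable def stepDeriv (ε t : ℝ) : ℝ := deriv smoothTransition (t / ε) / ε

theorem stepDeriv_nonneg {ε : ℝ} (hε : 0 < ε) (t : ℝ) : 0 ≤ stepDeriv ε t :=
  div_nonneg smoothTransition.monotone.deriv_nonneg hε.le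

theorem stepDeriv_eq_zero {ε t : ℝ} (hε : 0 < ε) (ht : t ∉ Icc 0 ε) : stepDeriv ε t = 0 := by
  rw [stepDeriv, div_eq_zero_iff]
  left
  rw [mem_Icc, not_and_or, not_le, not_le] at ht
  rcases ht with h | h
  · have h' : t / ε < 0 := div_neg_of_neg_of_pos h hε
    have e : smoothTransition =ᶠ[𝓝 (t / ε)] fun _ => 0 :=
      (eventually_lt_nhds h').mono fun y hy => smoothTransition.zero_of_nonpos hy.le
    rw [e.deriv_eq, deriv_const]
  · have h' : 1 < t / ε := (one_lt_div hε).2 h
    have e : smoothTransition =ᶠ[𝓝 (t / ε)] fun _ => 1 :=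
      (eventually_gt_nhds h').mono fun y hy => smoothTransition.one_of_one_le hy.le
    rw [e.deriv_eq, deriv_const]

theorem hasDerivAt_step (ε t : ℝ) :
    HasDerivAt (fun y => smoothTransition (y / ε)) (stepDeriv ε t) t := by
  have h := ((smoothTransition.contDiff (n := 1)).differentiable one_ne_zero (t / ε)).hasDerivAt.comp
    t ((hasDerivAt_id t).div_const ε)
  refine h.congr_deriv ?_
  rw [stepDeriv]
  ring

theorem lintegral_stepDeriv {ε : ℝ} (hε : 0 < ε) :
    ∫⁻ t, ENNReal.ofReal (stepDeriv ε t) ≤ 1 := by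
  have hc : Continuous (stepDeriv ε) :=
    (((smoothTransition.contDiff (n := 1)).continuous_deriv le_rfl).comp
      (continuous_id.div_const ε)).div_const ε
  rw [← setLIntegral_eq_of_support_subset (s := Icc 0 ε) fun t ht => by
    by_contra hn
    exact ht (by simp [stepDeriv_eq_zero hε hn])]
  rw [← ofReal_integral_eq_lintegral_ofReal (hc.continuousOn.integrableOn_compact isCompact_Icc)
    (Eventually.of_forall fun t => stepDeriv_nonneg hε t), integral_Icc_eq_integral_Ioc,
    ← intervalIntegral.integral_of_le hε.le,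
    intervalIntegral.integral_eq_sub_of_hasDerivAt (fun t _ => hasDerivAt_step ε t)
      (hc.intervalIntegrable _ _)]
  simp [hε.ne']

/-- A reflection-invariant defining function. -/
theorem exists_invariant_defining {n : ℕ} {u : EuclideanSpace ℝ (Fin n) → ℝ}
    (hu : ContDiff ℝ 1 u) (hreg : ∀ x, u x = 0 → fderiv ℝ u x ≠ 0)
    (hsym : ∀ x y : EuclideanSpace ℝ (Fin n), (∀ i, |x i| = |y i|) → u x < 0 → u y < 0) :
    ∃ v : EuclideanSpace ℝ (Fin n) → ℝ, ContDiff ℝ 1 v ∧ {x | v x < 0} = {x | u x < 0} ∧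
      (∀ x, v x = 0 → fderiv ℝ v x ≠ 0) ∧
      ∀ x y : EuclideanSpace ℝ (Fin n), (∀ i, |x i| = |y i|) → v x = v y := by
  classical
  set c : (Fin n → Bool) → Fin n → ℝ := fun s i => if s i then (-1 : ℝ) else 1 with hc
  set σ : (Fin n → Bool) → EuclideanSpace ℝ (Fin n) →L[ℝ] EuclideanSpace ℝ (Fin n) := fun s =>
    (PiLp.continuousLinearEquiv 2 ℝ (fun _ : Fin n => ℝ)).symm.toContinuousLinearMap.comp
      (ContinuousLinearMap.pi fun i => c s i • PiLp.proj 2 (fun _ : Fin n => ℝ) i) with hσ
  have hσi : ∀ s x i, σ s x i = c s i * x i := fun s x i => by simp [hσ]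
  have habs : ∀ s x i, |σ s x i| = |x i| := fun s x i => by
    rw [hσi, abs_mul, hc]
    dsimp only
    split_ifs <;> simp
  have hid : ∀ x, σ (fun _ => false) x = x := fun x => by ext i; simp [hσi, hc]
  have hneg : ∀ s x, u (σ s x) < 0 ↔ u x < 0 := fun s x =>
    ⟨hsym _ _ (habs s x), hsym _ _ fun i => (habs s x i).symm⟩
  set v := fun x => ∑ s, u (σ s x) with hv
  refine ⟨v, ContDiff.sum fun s _ => hu.comp (σ s).contDiff, ?_, fun x hx => ?_, fun x y h => ?_⟩
  · ext x
    simp only [mem_setOf_eq]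
    refine ⟨fun hx => ?_, fun hx => Finset.sum_neg (fun s _ => (hneg s x).2 hx) Finset.univ_nonempty⟩
    by_contra hux
    exact absurd hx (not_lt.2 (Finset.sum_nonneg fun s _ => not_lt.1 fun h => hux ((hneg s x).1 h)))
  · have hux : ¬ u x < 0 := fun h =>
      (Finset.sum_neg (fun s _ => (hneg s x).2 h) Finset.univ_nonempty).ne hx
    have hall : ∀ s, u (σ s x) = 0 := fun s => (Finset.sum_eq_zero_iff_of_nonneg
      fun t _ => not_lt.1 fun h => hux ((hneg t x).1 h)).1 hx s (Finset.mem_univ s)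
    have hu0 : u x = 0 := by simpa [hid] using hall (fun _ => false)
    obtain ⟨w, hw⟩ : ∃ w, fderiv ℝ u x w < 0 := by
      by_contra hc
      refine hreg x hu0 (ContinuousLinearMap.ext fun w => le_antisymm ?_ ?_)
      · have := not_lt.1 fun h => hc ⟨-w, h⟩
        simpa using this
      · exact not_lt.1 fun h => hc ⟨w, h⟩
    have hd : ∀ (z : EuclideanSpace ℝ (Fin n) → ℝ), DifferentiableAt ℝ z x →
        HasDerivAt (fun t : ℝ => z (x + t • w)) (fderiv ℝ z x w) 0 := by
      intro z hz
      have h1 : HasDerivAt (fun t : ℝ => x + t • w) w 0 := by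
        simpa using ((hasDerivAt_id' (0 : ℝ)).smul_const w).const_add x
      have h2 : HasFDerivAt z (fderiv ℝ z x) (x + (0 : ℝ) • w) := by simpa using hz.hasFDerivAt
      exact h2.comp_hasDerivAt 0 h1
    have hev : ∀ᶠ t in 𝓝[>] (0 : ℝ), u (x + t • w) < 0 := by
      have h1 := (hasDerivWithinAt_iff_tendsto_slope' (notMem_Ioi.mpr le_rfl)).1
        ((hd u (hu.differentiable one_ne_zero x)).hasDerivWithinAt (s := Ioi 0))
      filter_upwards [h1.eventually_lt_const hw, self_mem_nhdsWithin] with t ht ht0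
      rw [slope_def_field, zero_smul, add_zero, hu0, sub_zero, sub_zero] at ht
      by_contra h
      exact absurd ht (not_lt.2 (div_nonneg (not_lt.1 h) (le_of_lt ht0)))
    have hle : ∀ s, fderiv ℝ (fun z => u (σ s z)) x w ≤ 0 := by
      intro s
      have h1 := (hasDerivWithinAt_iff_tendsto_slope' (notMem_Ioi.mpr le_rfl)).1
        ((hd _ ((hu.comp (σ s).contDiff).differentiable one_ne_zero x)).hasDerivWithinAt (s := Ioi 0))
      refine le_of_tendsto h1 ?_
      filter_upwards [hev, self_mem_nhdsWithin] with t ht ht0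
      rw [slope_def_field]
      simp only [zero_smul, add_zero, Function.comp_apply, hall, sub_zero]
      exact div_nonpos_of_nonpos_of_nonneg ((hneg s _).2 ht).le (le_of_lt ht0)
    intro h0
    have hsum : fderiv ℝ v x w = ∑ s, fderiv ℝ (fun z => u (σ s z)) x w := by
      have hdz : ∀ s, DifferentiableAt ℝ (fun z => u (σ s z)) x := fun s =>
        (hu.comp (σ s).contDiff).differentiable one_ne_zero x
      rw [hv, fderiv_fun_sum fun s _ => hdz s]
      simp
    rw [h0] at hsum
    have hneg' : ∑ s, fderiv ℝ (fun z => u (σ s z)) x w < 0 :=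
      Finset.sum_neg' (fun s _ => hle s) ⟨fun _ => false, Finset.mem_univ _, by
        simp only [hid]
        exact hw⟩
    exact hneg'.ne (by simpa using hsum.symm)
  · set t : Fin n → Bool := fun i => decide (x i ≠ y i) with ht
    have hy : σ t x = y := by
      ext i
      rw [hσi, hc, ht]
      dsimp only
      by_cases e' : x i = y i
      · simp [e']
      · rcases abs_eq_abs.1 (h i) with e | e
        · exact absurd e e'
        · simp only [ne_eq, e', not_false_eq_true, decide_true, if_true]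
          linarith
    have hcomp : ∀ s, σ s y = σ (fun i => xor (s i) (t i)) x := fun s => by
      ext i
      rw [← hy, hσi, hσi, hσi, hc]
      dsimp only
      rcases Bool.eq_false_or_eq_true (s i) with h1 | h1 <;>
        rcases Bool.eq_false_or_eq_true (t i) with h2 | h2 <;> simp [h1, h2]
    have hinv : Function.Involutive fun (s : Fin n → Bool) i => xor (s i) (t i) := fun s => by
      funext i
      simp
    show v x = v y
    simp only [hv, hcomp]
    exact (Fintype.sum_bijective _ hinv.bijective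
      (fun s => u (σ (fun i => xor (s i) (t i)) x)) (fun s => u (σ s x)) fun s => rfl).symm

/-- The frontier of a regular sublevel set. -/
theorem frontier_sublevel {n : ℕ} {u : EuclideanSpace ℝ (Fin n) → ℝ}
    (hu : ContDiff ℝ 1 u) (hreg : ∀ x, u x = 0 → fderiv ℝ u x ≠ 0) :
    frontier {x | u x < 0} = {x | u x = 0} := by
  refine Subset.antisymm (frontier_lt_subset_eq hu.continuous continuous_const) fun x hx => ?_
  rw [frontier_eq_closure_inter_closure]
  refine ⟨?_, subset_closure (by simp [show u x = 0 from hx])⟩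
  obtain ⟨w, hw⟩ : ∃ w, fderiv ℝ u x w < 0 := by
    by_contra hc
    refine hreg x hx (ContinuousLinearMap.ext fun w => le_antisymm ?_ ?_)
    · have := not_lt.1 fun h => hc ⟨-w, h⟩
      simpa using this
    · exact not_lt.1 fun h => hc ⟨w, h⟩
  have h1 : HasDerivAt (fun t : ℝ => x + t • w) w 0 := by
    simpa using ((hasDerivAt_id' (0 : ℝ)).smul_const w).const_add x
  have h2 : HasFDerivAt u (fderiv ℝ u x) (x + (0 : ℝ) • w) := by
    simpa using (hu.differentiable one_ne_zero x).hasFDerivAt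
  have h3 := (hasDerivWithinAt_iff_tendsto_slope' (notMem_Ioi.mpr le_rfl)).1
    ((h2.comp_hasDerivAt 0 h1).hasDerivWithinAt (s := Ioi 0))
  have hlim : Tendsto (fun t : ℝ => x + t • w) (𝓝[>] 0) (𝓝 x) := by
    simpa using (h1.continuousAt.tendsto.mono_left nhdsWithin_le_nhds)
  refine mem_closure_of_tendsto hlim ?_
  filter_upwards [h3.eventually_lt_const hw, self_mem_nhdsWithin] with t ht ht0
  simp only [slope_def_field, Function.comp_apply, zero_smul, add_zero,
    show u x = 0 from hx, sub_zero] at ht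
  by_contra h
  exact absurd ht (not_lt.2 (div_nonneg (not_lt.1 h) (le_of_lt ht0)))

/-- The boundary area in the conformal metric. -/
noncomputable def confArea (m : ℕ) (φ : EuclideanSpace ℝ (Fin (m + 1)) → ℝ)
    (S : Set (EuclideanSpace ℝ (Fin (m + 1)))) : ℝ≥0∞ :=
  ∫⁻ x in S, ENNReal.ofReal (exp ((m : ℝ) * φ x)) ∂μHE[m]

/-- Weighted layers are bounded by the boundary area. -/
theorem layer_le_area {m : ℕ} {φ u : EuclideanSpace ℝ (Fin (m + 1)) → ℝ} (hφ : Continuous φ)
    (hu : ContDiff ℝ 1 u) (hK : IsCompact {x | u x = 0}) (hreg : ∀ x, u x = 0 → fderiv ℝ u x ≠ 0)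
    {B : Set (EuclideanSpace ℝ (Fin (m + 1)))} (hB : IsCompact B)
    {η : ℝ} (hη : 0 < η) (hη1 : η < 1) :
    ∃ δ > 0, ∀ k : ℝ → ℝ≥0∞, Measurable k → (∀ t, t ∉ Icc 0 δ → k t = 0) → ∫⁻ t, k t ≤ 1 →
      ∫⁻ x in B, ENNReal.ofReal (exp ((m : ℝ) * φ x)) * ENNReal.ofReal ‖fderiv ℝ u x‖ * k (u x) ≤
        ENNReal.ofReal ((1 + η) / (1 - η)) *
          (confArea m φ {x | u x = 0} + ENNReal.ofReal η) := by
  classical
  choose b Ψ U hΨ hU hmem hsrc hηU using fun p : {x // u x = 0} =>
    exists_chart hu hη (hreg p.1 p.2)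
  obtain ⟨s, hs⟩ := hK.elim_finite_subcover U hU fun x hx => mem_iUnion.2 ⟨⟨x, hx⟩, hmem ⟨x, hx⟩⟩
  set N := s.card
  set e := s.equivFin.symm
  obtain ⟨ψ, hψU, hψ1, hψI, hψc⟩ := exists_continuous_sum_one_of_isOpen_isCompact
    (s := fun i : Fin N => U (e i).1) (fun i => hU _) hK (by
      intro x hx
      obtain ⟨p, hp, hxp⟩ := mem_iUnion₂.1 (hs hx)
      exact mem_iUnion.2 ⟨s.equivFin ⟨p, hp⟩, by simpa [e] using hxp⟩)
  set S := fun x => ∑ i, ψ i x with hS
  have hSc : Continuous S := continuous_finsetSum _ fun i _ => (ψ i).continuous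
  have hS1 : ∀ x, u x = 0 → S x = 1 := fun x hx => by simpa [hS] using hψ1 hx
  obtain ⟨c, hc0, hc⟩ : ∃ c > 0, ∀ x ∈ B, S x ≤ 1 - η → c ≤ |u x| := by
    rcases (B ∩ {x | S x ≤ 1 - η}).eq_empty_or_nonempty with h | h
    · exact ⟨1, one_pos, fun x hx hx' => (h.subset ⟨hx, hx'⟩).elim⟩
    obtain ⟨x0, hx0, hmin⟩ := (hB.inter_right (isClosed_le hSc continuous_const)).exists_isMinOn h
      hu.continuous.abs.continuousOn
    exact ⟨|u x0|, abs_pos.2 fun h0 => by linarith [hS1 x0 h0, show S x0 ≤ 1 - η from hx0.2],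
      fun x hx hx' => hmin ⟨hx, hx'⟩⟩
  set w := fun x => exp ((m : ℝ) * φ x) with hw
  have hwc : Continuous w := (continuous_const.mul hφ).rexp
  choose δ hδ0 hδ using fun i : Fin N => layer_le_surface (b (e i).1) hu (Ψ (e i).1) (hΨ _)
    (hU (e i).1) (hsrc _) (hηU _) (g := fun x => ψ i x * w x) ((ψ i).continuous.mul hwc)
    ((hψc i).mul_right) ((tsupport_mul_subset_left).trans (hψU i))
    (show 0 < η / ((N : ℝ) + 1) by positivity)
  obtain ⟨d, hd0, hd⟩ : ∃ d > 0, ∀ i, d ≤ δ i := by
    rcases isEmpty_or_nonempty (Fin N) with h | h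
    · exact ⟨1, one_pos, fun i => h.elim i⟩
    · obtain ⟨i0, -, h0⟩ := Finset.exists_min_image Finset.univ δ Finset.univ_nonempty
      exact ⟨δ i0, hδ0 i0, fun i => h0 i (Finset.mem_univ i)⟩
  refine ⟨min d (c / 2), by positivity, fun k hk hk0 hk1 => ?_⟩
  have hm : ∀ i : Fin N, Measurable fun x => ENNReal.ofReal (ψ i x * w x) *
      ENNReal.ofReal ‖fderiv ℝ u x‖ * k (u x) := fun i =>
    (((ψ i).continuous.mul hwc).measurable.ennreal_ofReal.mul
      (hu.continuous_fderiv one_ne_zero).norm.measurable.ennreal_ofReal).mul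
        (hk.comp hu.continuous.measurable)
  have h1 : ∀ x ∈ B, ENNReal.ofReal (w x) * ENNReal.ofReal ‖fderiv ℝ u x‖ * k (u x) ≤
      ENNReal.ofReal (1 / (1 - η)) * ∑ i, ENNReal.ofReal (ψ i x * w x) *
        ENNReal.ofReal ‖fderiv ℝ u x‖ * k (u x) := by
    intro x hx
    by_cases hux : u x ∈ Icc 0 (min d (c / 2))
    swap
    · simp [hk0 _ hux]
    have hSx : 1 - η < S x := by
      by_contra h
      have := hc x hx (not_lt.1 h)
      rw [abs_of_nonneg hux.1] at this
      linarith [hux.2, min_le_right d (c / 2)]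
    rw [← Finset.sum_mul, ← Finset.sum_mul, ← ENNReal.ofReal_sum_of_nonneg (fun i _ =>
      mul_nonneg (hψI i x).1 (exp_pos _).le), ← Finset.sum_mul, ← mul_assoc, ← mul_assoc,
      ← ENNReal.ofReal_mul (show 0 ≤ 1 / (1 - η) from div_nonneg zero_le_one (by linarith))]
    refine mul_le_mul' (mul_le_mul' (ENNReal.ofReal_le_ofReal ?_) le_rfl) le_rfl
    rw [← mul_assoc]
    refine le_mul_of_one_le_left (exp_pos _).le ?_
    rw [one_div_mul_eq_div, le_div_iff₀ (by linarith), one_mul]
    exact hSx.le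
  calc ∫⁻ x in B, ENNReal.ofReal (w x) * ENNReal.ofReal ‖fderiv ℝ u x‖ * k (u x)
      ≤ ∫⁻ x in B, ENNReal.ofReal (1 / (1 - η)) * ∑ i, ENNReal.ofReal (ψ i x * w x) *
          ENNReal.ofReal ‖fderiv ℝ u x‖ * k (u x) := setLIntegral_mono' hB.measurableSet h1
    _ ≤ ENNReal.ofReal (1 / (1 - η)) * ∫⁻ x, ∑ i, ENNReal.ofReal (ψ i x * w x) *
          ENNReal.ofReal ‖fderiv ℝ u x‖ * k (u x) := by
        rw [lintegral_const_mul' _ _ ENNReal.ofReal_ne_top]
        exact mul_le_mul' le_rfl (setLIntegral_le_lintegral _ _)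
    _ ≤ ENNReal.ofReal (1 / (1 - η)) * ∑ i, ENNReal.ofReal (1 + η) *
          ((∫⁻ x in {x | u x = 0}, ENNReal.ofReal (ψ i x * w x) ∂μHE[m]) +
            ENNReal.ofReal (η / ((N : ℝ) + 1))) := by
        rw [lintegral_finsetSum _ fun i _ => hm i]
        refine mul_le_mul' le_rfl (Finset.sum_le_sum fun i _ => hδ i k hk (fun t ht => hk0 t
          fun h => ht ⟨h.1, h.2.trans ((min_le_left _ _).trans (hd i))⟩) hk1)
    _ ≤ _ := by
        rw [← Finset.mul_sum, Finset.sum_add_distrib, ← mul_assoc,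
          ← ENNReal.ofReal_mul (by positivity), one_div_mul_eq_div,
          ← lintegral_finsetSum _ fun i _ =>
            ((ψ i).continuous.fun_mul hwc).measurable.ennreal_ofReal]
        refine mul_le_mul' le_rfl (add_le_add (le_of_eq ?_) ?_)
        · refine setLIntegral_congr_fun hK.measurableSet fun x hx => ?_
          show _ = ENNReal.ofReal (w x)
          rw [← ENNReal.ofReal_sum_of_nonneg (fun i _ => mul_nonneg (hψI i x).1 (exp_pos _).le),
            ← Finset.sum_mul, show ∑ i, ψ i x = 1 from hS1 x hx, one_mul]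
        · rw [Finset.sum_const, Finset.card_univ, Fintype.card_fin, ← ENNReal.ofReal_nsmul]
          refine ENNReal.ofReal_le_ofReal ?_
          rw [nsmul_eq_mul, mul_div_assoc', div_le_iff₀ (by positivity)]
          nlinarith

/-- The isoperimetric inequality for symmetric regular domains. -/
theorem geometric_inequality {n : ℕ} (hn : 2 ≤ n) {φ u : EuclideanSpace ℝ (Fin n) → ℝ}
    (hφ : ContDiff ℝ 1 φ)
    (hm : ∀ x y : EuclideanSpace ℝ (Fin n), (∀ i, |x i| ≤ |y i|) → φ x ≤ φ y)
    (hu : ContDiff ℝ 1 u) (hb : Bornology.IsBounded {x | u x < 0})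
    (hreg : ∀ x, u x = 0 → fderiv ℝ u x ≠ 0)
    (hsym : ∀ x y : EuclideanSpace ℝ (Fin n), (∀ i, |x i| = |y i|) → u x < 0 → u y < 0) :
    ENNReal.ofReal ((n : ℝ) *
        (volume (Metric.ball (0 : EuclideanSpace ℝ (Fin n)) 1)).toReal ^ ((1 : ℝ) / n) *
        (∫ x in {x | u x < 0}, exp ((n : ℝ) * φ x)) ^ (((n : ℝ) - 1) / n))
      ≤ ∫⁻ x in frontier {x | u x < 0},
          ENNReal.ofReal (exp (((n : ℝ) - 1) * φ x)) ∂μHE[n - 1] := by
  obtain ⟨v, hv, hvu, hvreg, hvsym⟩ := exists_invariant_defining hu hreg hsym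
  rw [← hvu]
  rw [← hvu] at hb
  clear hvu hsym hreg hu u
  obtain ⟨m, rfl⟩ : ∃ m, n = m + 1 := ⟨n - 1, by omega⟩
  set T := (((m + 1 : ℕ) : ℝ)) *
      (volume (Metric.ball (0 : EuclideanSpace ℝ (Fin (m + 1))) 1)).toReal ^
        ((1 : ℝ) / ((m + 1 : ℕ) : ℝ)) *
      (∫ x in {x | v x < 0}, exp (((m + 1 : ℕ) : ℝ) * φ x)) ^
        ((((m + 1 : ℕ) : ℝ) - 1) / ((m + 1 : ℕ) : ℝ))
  have hfr := frontier_sublevel hv hvreg
  have hK : IsCompact {x | v x = 0} := hfr ▸
    Metric.isCompact_of_isClosed_isBounded isClosed_frontier (hb.closure.subset frontier_subset_closure)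
  obtain ⟨R, hR⟩ := hb.closure.subset_ball 0
  set R' := |R| + 1
  set B : Set (EuclideanSpace ℝ (Fin (m + 1))) := Metric.closedBall 0 R'
  set A : Set (EuclideanSpace ℝ (Fin (m + 1))) := {x | R' ≤ ‖x‖ ∧ ‖x‖ ^ 2 ≤ R' ^ 2 + 1}
  have hR'0 : 0 < R' := by positivity
  have hball : ∀ x ∈ closure {x | v x < 0}, ‖x‖ < R' := fun x hx => by
    have := hR hx
    rw [Metric.mem_ball, dist_zero_right] at this
    linarith [le_abs_self R]
  have hA : IsCompact A := by
    refine Metric.isCompact_of_isClosed_isBounded ((isClosed_le continuous_const continuous_norm).inter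
      (isClosed_le (continuous_norm.pow 2) continuous_const))
      ((Metric.isBounded_closedBall (x := 0) (r := R' + 1)).subset fun x hx => ?_)
    rw [Metric.mem_closedBall, dist_zero_right]
    nlinarith [hx.2, norm_nonneg x]
  have hApos : ∀ x ∈ A, 0 < v x := fun x hx => by
    have hx' : x ∉ closure {x | v x < 0} := fun h => by linarith [hball x h, hx.1]
    rcases lt_trichotomy (v x) 0 with h | h | h
    · exact absurd (subset_closure (show x ∈ {x | v x < 0} from h)) hx'
    · exact absurd (frontier_subset_closure (hfr.symm.subset h)) hx'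
    · exact h
  obtain ⟨c, hc0, hc⟩ : ∃ c > 0, ∀ x ∈ A, c ≤ v x := by
    rcases A.eq_empty_or_nonempty with h | h
    · exact ⟨1, one_pos, fun x hx => (h.subset hx).elim⟩
    obtain ⟨x0, hx0, hmin⟩ := hA.exists_isMinOn h hv.continuous.continuousOn
    exact ⟨v x0, hApos x0 hx0, fun x hx => hmin hx⟩
  have key : ∀ η : ℝ, 0 < η → η < 1 → ENNReal.ofReal T ≤
      ENNReal.ofReal ((1 + η) / (1 - η)) *
        (confArea m φ {x | v x = 0} + ENNReal.ofReal η) := by
    intro η hη hη1
    obtain ⟨δ, hδ, hlayer⟩ := layer_le_area hφ.continuous hv hK hvreg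
      (B := B) (isCompact_closedBall _ _) hη hη1
    set ε := min δ (c / 2)
    have hε : 0 < ε := lt_min hδ (by linarith)
    have hl := hlayer (fun t => ENNReal.ofReal (stepDeriv ε t))
      ((((smoothTransition.contDiff (n := 1)).continuous_deriv le_rfl).comp
        (continuous_id.div_const ε)).div_const ε).measurable.ennreal_ofReal
      (fun t ht => by
        rw [stepDeriv_eq_zero hε fun h => ht ⟨h.1, h.2.trans (min_le_left _ _)⟩,
          ENNReal.ofReal_zero]) (lintegral_stepDeriv hε)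
    refine le_trans ?_ hl
    set θ := fun x : EuclideanSpace ℝ (Fin (m + 1)) => 1 - smoothTransition (‖x‖ ^ 2 - R' ^ 2)
    set f := fun x => θ x * (1 - smoothTransition (v x / ε)) with hf
    have hfd : ContDiff ℝ 1 f :=
      (contDiff_const.sub (smoothTransition.contDiff.comp ((contDiff_norm_sq ℝ).sub contDiff_const))).mul
        (contDiff_const.sub (smoothTransition.contDiff.comp (hv.div_const ε)))
    have hfout : ∀ x, R' ^ 2 + 1 ≤ ‖x‖ ^ 2 → f x = 0 := fun x hx => by
      simp [hf, θ, smoothTransition.one_of_one_le (show (1 : ℝ) ≤ ‖x‖ ^ 2 - R' ^ 2 by linarith)]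
    have hfs : HasCompactSupport f :=
      HasCompactSupport.intro (isCompact_closedBall 0 (R' + 1)) fun x hx => hfout x (by
        rw [Metric.mem_closedBall, dist_zero_right, not_le] at hx
        nlinarith)
    have hnorm : ∀ x y : EuclideanSpace ℝ (Fin (m + 1)), (∀ i, |x i| = |y i|) → ‖x‖ = ‖y‖ :=
      fun x y h => by
        rw [EuclideanSpace.norm_eq, EuclideanSpace.norm_eq]
        simp [h]
    have hfev : ∀ x y : EuclideanSpace ℝ (Fin (m + 1)), (∀ i, |x i| = |y i|) → f x = f y :=
      fun x y h => by simp [hf, θ, hvsym x y h, hnorm x y h]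
    have hS := symmetric_inequality_euclidean hn hφ hm hfd hfs hfev
    have hgrad : ∀ x, ‖fderiv ℝ f x‖ ≤
        B.indicator (fun x => stepDeriv ε (v x) * ‖fderiv ℝ v x‖) x := by
      intro x
      have hnn : 0 ≤ B.indicator (fun x => stepDeriv ε (v x) * ‖fderiv ℝ v x‖) x :=
        indicator_nonneg (fun y _ => mul_nonneg (stepDeriv_nonneg hε _) (norm_nonneg _)) x
      rcases lt_or_ge ‖x‖ R' with h | h
      · have e : f =ᶠ[𝓝 x] fun y => 1 - smoothTransition (v y / ε) :=
          eventually_of_mem ((isOpen_lt continuous_norm continuous_const).mem_nhds h) fun y hy => by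
            have : ‖y‖ ^ 2 - R' ^ 2 ≤ 0 := by nlinarith [norm_nonneg y, show ‖y‖ < R' from hy]
            simp [hf, θ, smoothTransition.zero_of_nonpos this]
        have hd : HasFDerivAt (fun y => 1 - smoothTransition (v y / ε))
            (-(stepDeriv ε (v x) • fderiv ℝ v x)) x :=
          ((hasDerivAt_step ε (v x)).comp_hasFDerivAt x
            (hv.differentiable one_ne_zero x).hasFDerivAt).const_sub 1
        rw [e.fderiv_eq, hd.fderiv, norm_neg, norm_smul, Real.norm_eq_abs,
          abs_of_nonneg (stepDeriv_nonneg hε _), indicator_of_mem (by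
            simpa [B] using h.le)]
      · suffices h0 : fderiv ℝ f x = 0 by simpa [h0] using hnn
        by_cases h2 : ‖x‖ ^ 2 ≤ R' ^ 2 + 1
        · have hcx : ε < v x := by linarith [hc x ⟨h, h2⟩, min_le_right δ (c / 2)]
          have e : f =ᶠ[𝓝 x] fun _ => 0 :=
            eventually_of_mem ((isOpen_lt continuous_const hv.continuous).mem_nhds hcx) fun y hy => by
              simp [hf, smoothTransition.one_of_one_le ((one_le_div hε).2 (le_of_lt (show ε < v y from hy)))]
          simp [e.fderiv_eq]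
        · have e : f =ᶠ[𝓝 x] fun _ => 0 :=
            eventually_of_mem ((isOpen_lt continuous_const (continuous_norm.pow 2)).mem_nhds
              (not_le.1 h2)) fun y hy => hfout y (le_of_lt hy)
          simp [e.fderiv_eq]
    have hn2 : (2 : ℝ) ≤ ((m + 1 : ℕ) : ℝ) := by exact_mod_cast hn
    have hp : 0 < ((m + 1 : ℕ) : ℝ) / (((m + 1 : ℕ) : ℝ) - 1) := div_pos (by linarith) (by linarith)
    have hvol : ∫ x in {x | v x < 0}, exp (((m + 1 : ℕ) : ℝ) * φ x) ≤
        ∫ x, exp (((m + 1 : ℕ) : ℝ) * φ x) *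
          |f x| ^ (((m + 1 : ℕ) : ℝ) / (((m + 1 : ℕ) : ℝ) - 1)) := by
      have hint : Integrable fun x => exp (((m + 1 : ℕ) : ℝ) * φ x) *
          |f x| ^ (((m + 1 : ℕ) : ℝ) / (((m + 1 : ℕ) : ℝ) - 1)) :=
        ((continuous_const.mul hφ.continuous).rexp.mul
          (hfd.continuous.abs.rpow_const fun x => Or.inr hp.le)).integrable_of_hasCompactSupport
          (HasCompactSupport.intro hfs.isCompact fun x hx => by
            simp only [Pi.mul_apply, image_eq_zero_of_notMem_tsupport hx, abs_zero,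
              zero_rpow hp.ne', mul_zero])
      refine le_trans (le_of_eq ?_) (setIntegral_le_integral (s := {x | v x < 0}) hint
        (Eventually.of_forall fun x => by positivity))
      refine setIntegral_congr_fun (isOpen_lt hv.continuous continuous_const).measurableSet
        fun x hx => ?_
      have h1 : f x = 1 := by
        have hb' : ‖x‖ ^ 2 - R' ^ 2 ≤ 0 := by
          nlinarith [hball x (subset_closure hx), norm_nonneg x]
        simp [hf, θ, smoothTransition.zero_of_nonpos hb',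
          smoothTransition.zero_of_nonpos (div_nonpos_of_nonpos_of_nonneg (le_of_lt hx) hε.le)]
      simp [h1]
    have hT : T ≤ ∫ x, exp ((((m + 1 : ℕ) : ℝ) - 1) * φ x) * ‖fderiv ℝ f x‖ := by
      refine le_trans ?_ hS
      refine mul_le_mul_of_nonneg_left (rpow_le_rpow (setIntegral_nonneg
        (isOpen_lt hv.continuous continuous_const).measurableSet fun x _ => (exp_pos _).le) hvol
          (div_nonneg (by linarith) (by linarith))) (by positivity)
    refine le_trans (ENNReal.ofReal_le_ofReal hT) ?_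
    have hint : Integrable fun x => exp ((((m + 1 : ℕ) : ℝ) - 1) * φ x) * ‖fderiv ℝ f x‖ :=
      ((continuous_const.mul hφ.continuous).rexp.mul
        (hfd.continuous_fderiv one_ne_zero).norm).integrable_of_hasCompactSupport
        ((hfs.fderiv ℝ).norm.mul_left)
    rw [ofReal_integral_eq_lintegral_ofReal hint (Eventually.of_forall fun x => by positivity),
      ← lintegral_indicator measurableSet_closedBall]
    refine lintegral_mono fun x => ?_
    refine le_trans (ENNReal.ofReal_le_ofReal (mul_le_mul_of_nonneg_left (hgrad x)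
      (exp_pos _).le)) (le_of_eq ?_)
    by_cases hx : x ∈ B
    · rw [indicator_of_mem hx, indicator_of_mem hx, ENNReal.ofReal_mul (exp_pos _).le,
        ENNReal.ofReal_mul (stepDeriv_nonneg hε _)]
      push_cast
      rw [add_sub_cancel_right]
      ring
    · rw [indicator_of_notMem hx, indicator_of_notMem hx, mul_zero, ENNReal.ofReal_zero]
  have hgoal : ENNReal.ofReal T ≤ confArea m φ {x | v x = 0} := by
    set Ar := confArea m φ {x | v x = 0}
    rcases eq_or_ne Ar ⊤ with h | h
    · rw [h]; exact le_top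
    rw [← ENNReal.ofReal_toReal h]
    refine ENNReal.ofReal_le_ofReal (le_of_tendsto_of_tendsto' (f := fun k : ℕ => T)
      (g := fun k : ℕ => (1 + 1 / ((k : ℝ) + 2)) / (1 - 1 / ((k : ℝ) + 2)) *
        (Ar.toReal + 1 / ((k : ℝ) + 2))) (b := atTop) tendsto_const_nhds ?_ fun k => ?_)
    · have h0 : Tendsto (fun k : ℕ => 1 / ((k : ℝ) + 2)) atTop (𝓝 0) := by
        simp only [one_div]
        exact tendsto_inv_atTop_zero.comp
          (tendsto_atTop_add_const_right _ _ tendsto_natCast_atTop_atTop)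
      simpa using ((h0.const_add 1).div (h0.const_sub 1) (by simp)).mul (h0.const_add Ar.toReal)
    · have h1 : 1 / ((k : ℝ) + 2) < 1 := by
        rw [div_lt_one (by positivity)]
        linarith [(Nat.cast_nonneg k : (0 : ℝ) ≤ k)]
      have hq : 0 ≤ (1 + 1 / ((k : ℝ) + 2)) / (1 - 1 / ((k : ℝ) + 2)) :=
        div_nonneg (by positivity) (by linarith)
      have hk := key (1 / ((k : ℝ) + 2)) (by positivity) h1
      rw [← ENNReal.ofReal_toReal h,
        ← ENNReal.ofReal_add ENNReal.toReal_nonneg (by positivity), ← ENNReal.ofReal_mul hq] at hk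
      exact (ENNReal.ofReal_le_ofReal_iff (mul_nonneg hq (by positivity))).1 hk
  rw [hfr, Nat.add_sub_cancel]
  simpa [confArea, T] using hgoal

end Vale.Agent.P219
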